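import Crest.Agent.Lib.LinSieve.Cor

/-! User friendly forms: arbitrary finite sets, real thresholds, `loglog` factors. -/

set_option autoImplicit false

namespace Crest.Agent.Lib.LinSieve

open Finset

lemma log_log_add_ten_ge (x : ℝ) (hx : 0 ≤ x) : 4 / 5 ≤ Real.log (Real.log (x + 10)) := by
  have h1 : Real.exp (4 / 5) ≤ 2.27 := by
    have h2 : Real.exp (4 / 5) ^ 5 = Real.exp 1 ^ 4 := by
      rw [← Real.exp_nat_mul, ← Real.exp_nat_mul]
      norm_num
    have h3 := Real.exp_one_lt_d9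
    have h4 : Real.exp 1 ^ 4 ≤ 2.7182818286 ^ 4 :=
      pow_le_pow_left₀ (Real.exp_pos _).le h3.le 4
    by_contra h5
    push Not at h5
    have h6 : (2.27 : ℝ) ^ 5 < Real.exp (4 / 5) ^ 5 := pow_lt_pow_left₀ h5 (by norm_num) (by norm_num)
    rw [h2] at h6
    norm_num at h4 h6
    linarith
  have h2 : (2.27 : ℝ) ≤ Real.log (x + 10) := by
    have h3 : Real.log 8 ≤ Real.log (x + 10) := Real.log_le_log (by norm_num) (by linarith)
    have h5 : Real.log 10 ≤ Real.log (x + 10) := Real.log_le_log (by norm_num) (by linarith)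
    have h6 : Real.log 10 = Real.log 2 + Real.log 5 := by
      rw [← Real.log_mul (by norm_num) (by norm_num)]
      norm_num
    -- log 10 ≥ 2.27 via 2^(10/3) ≤ 10
    have h7 : Real.log ((2 : ℝ) ^ 33) ≤ Real.log ((10 : ℝ) ^ 10) :=
      Real.log_le_log (by norm_num) (by norm_num)
    rw [Real.log_pow, Real.log_pow] at h7
    have h8 := Real.log_two_gt_d9
    push_cast at h7
    linarith
  rw [Real.le_log_iff_exp_le (by linarith)]
  linarith

/-- `E/φ(E) ≤ C loglog(E + 10)`. -/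
theorem ratio_le_loglog : ∃ C : ℝ, 0 < C ∧ ∀ E : ℕ, E ≠ 0 →
    (E : ℝ) / Nat.totient E ≤ C * Real.log (Real.log (E + 10)) := by
  obtain ⟨C, hC, h⟩ := ratio_le
  refine ⟨4 * C, by positivity, fun E hE => (h E hE).trans ?_⟩
  have hE1 : (1 : ℝ) ≤ E := by exact_mod_cast Nat.pos_of_ne_zero hE
  have h1 := log_log_add_ten_ge E (Nat.cast_nonneg E)
  have h2 : Real.log E ≤ Real.log (E + 10) := Real.log_le_log (by linarith) (by linarith)
  have h3 : (2 : ℝ) ≤ Real.log (E + 10) := by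
    have h4 : Real.log 8 ≤ Real.log (E + 10) := Real.log_le_log (by norm_num) (by linarith)
    have h5 : Real.log 8 = 3 * Real.log 2 := by
      rw [show (8 : ℝ) = 2 ^ 3 by norm_num, Real.log_pow]
      norm_num
    have h6 := Real.log_two_gt_d9
    linarith
  have h4 : Real.log E + 3 ≤ Real.log (E + 10) ^ 4 := by
    have h5 : Real.log (E + 10) ^ 4 = Real.log (E + 10) * Real.log (E + 10) ^ 3 := by ring
    have h6 : (8 : ℝ) ≤ Real.log (E + 10) ^ 3 := by
      calc (8 : ℝ) = 2 ^ 3 := by norm_num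
        _ ≤ _ := pow_le_pow_left₀ (by norm_num) h3 3
    rw [h5]
    nlinarith
  have h5 : Real.log (Real.log E + 3) ≤ 4 * Real.log (Real.log (E + 10)) := by
    have h6 := Real.log_le_log (by
      have := Real.log_natCast_nonneg E
      linarith) h4
    rw [Real.log_pow] at h6
    exact_mod_cast h6
  calc C * Real.log (Real.log E + 3) ≤ C * (4 * Real.log (Real.log (E + 10))) :=
        mul_le_mul_of_nonneg_left h5 hC.le
    _ = _ := by ring

/-- two forms, arbitrary finite sets of primes `> Q`. -/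
theorem sieve_two_finset : ∃ C : ℝ, 0 < C ∧ ∀ (A : ℕ), 1 ≤ A → ∀ Q : ℝ, 2 ≤ Q →
    ∀ T : Finset ℕ, (∀ R ∈ T, Q < R ∧ R.Prime ∧ (A * R + 1).Prime) →
    ∑ R ∈ T, (1 : ℝ) / R ≤ C * Real.log (Real.log (A + 10)) ^ 2 / Real.log Q := by
  obtain ⟨C, hC, h⟩ := sieve_two_inv
  obtain ⟨D, hD, hr⟩ := ratio_le_loglog
  refine ⟨2 * C * D ^ 2, by positivity, fun A hA Q hQ T hT => ?_⟩
  have hlQ : 0 < Real.log Q := Real.log_pos (by linarith)
  have hq2 : 2 ≤ ⌊Q⌋₊ := Nat.le_floor (by exact_mod_cast hQ)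
  have hq2' : (2 : ℝ) ≤ ⌊Q⌋₊ := by exact_mod_cast hq2
  have hlq : Real.log Q ≤ 2 * Real.log ⌊Q⌋₊ := by
    have h1 : Q < ⌊Q⌋₊ + 1 := Nat.lt_floor_add_one Q
    have h2 : Q ≤ (⌊Q⌋₊ : ℝ) ^ 2 := by nlinarith
    have h3 := Real.log_le_log (by linarith) h2
    rw [Real.log_pow] at h3
    exact_mod_cast h3
  have h1 := h A hA ⌊Q⌋₊ (T.sup id) hq2
  have h2 : ∑ R ∈ T, (1 : ℝ) / R ≤ ∑ R ∈ (Finset.Ioc ⌊Q⌋₊ (T.sup id)).filter
      (fun R => R.Prime ∧ (A * R + 1).Prime), (1 : ℝ) / R := by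
    apply Finset.sum_le_sum_of_subset_of_nonneg
    · intro R hR
      have h3 := hT R hR
      rw [Finset.mem_filter, Finset.mem_Ioc]
      refine ⟨⟨?_, Finset.le_sup (f := id) hR⟩, h3.2⟩
      rw [Nat.floor_lt (by linarith)]
      exact h3.1
    · intro R _ _
      positivity
  refine h2.trans (h1.trans ?_)
  have h3 := hr A (by omega)
  have h0 : 0 ≤ (A : ℝ) / Nat.totient A := by positivity
  have h4 : ((A : ℝ) / Nat.totient A) ^ 2 ≤ (D * Real.log (Real.log (A + 10))) ^ 2 :=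
    pow_le_pow_left₀ h0 h3 2
  have hl0 : 0 < Real.log ⌊Q⌋₊ := Real.log_pos (by linarith)
  have h5 : 1 / Real.log ⌊Q⌋₊ ≤ 2 / Real.log Q := by
    rw [div_le_div_iff₀ hl0 hlQ]
    linarith
  calc C * ((A : ℝ) / Nat.totient A) ^ 2 / Real.log ⌊Q⌋₊
      = C * ((A : ℝ) / Nat.totient A) ^ 2 * (1 / Real.log ⌊Q⌋₊) := by ring
    _ ≤ C * (D * Real.log (Real.log (A + 10))) ^ 2 * (2 / Real.log Q) := by gcongr
    _ = _ := by ring

/-- three forms, arbitrary finite sets of primes `> Q`. -/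
theorem sieve_three_finset : ∃ C : ℝ, 0 < C ∧ ∀ (A B : ℕ), 1 ≤ A → 1 ≤ B → A ≠ B →
    ∀ Q : ℝ, 2 ≤ Q → ∀ T : Finset ℕ,
    (∀ R ∈ T, Q < R ∧ R.Prime ∧ (A * R + 1).Prime ∧ (B * R + 1).Prime) →
    ∑ R ∈ T, (1 : ℝ) / R ≤ C * Real.log (Real.log (A + B + 10)) ^ 3 / Real.log Q ^ 2 := by
  obtain ⟨C, hC, h⟩ := sieve_three_inv
  obtain ⟨D, hD, hr⟩ := ratio_le_loglog
  refine ⟨4 * C * (6 * D) ^ 3, by positivity, fun A B hA hB hAB Q hQ T hT => ?_⟩
  have hlQ : 0 < Real.log Q := Real.log_pos (by linarith)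
  have hq2 : 2 ≤ ⌊Q⌋₊ := Nat.le_floor (by exact_mod_cast hQ)
  have hq2' : (2 : ℝ) ≤ ⌊Q⌋₊ := by exact_mod_cast hq2
  have hlq : Real.log Q ≤ 2 * Real.log ⌊Q⌋₊ := by
    have h1 : Q < ⌊Q⌋₊ + 1 := Nat.lt_floor_add_one Q
    have h2 : Q ≤ (⌊Q⌋₊ : ℝ) ^ 2 := by nlinarith
    have h3 := Real.log_le_log (by linarith) h2
    rw [Real.log_pow] at h3
    exact_mod_cast h3
  have h1 := h A B hA hB hAB ⌊Q⌋₊ (T.sup id) hq2
  have h2 : ∑ R ∈ T, (1 : ℝ) / R ≤ ∑ R ∈ (Finset.Ioc ⌊Q⌋₊ (T.sup id)).filter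
      (fun R => R.Prime ∧ (A * R + 1).Prime ∧ (B * R + 1).Prime), (1 : ℝ) / R := by
    apply Finset.sum_le_sum_of_subset_of_nonneg
    · intro R hR
      have h3 := hT R hR
      rw [Finset.mem_filter, Finset.mem_Ioc]
      refine ⟨⟨?_, Finset.le_sup (f := id) hR⟩, h3.2⟩
      rw [Nat.floor_lt (by linarith)]
      exact h3.1
    · intro R _ _
      positivity
  refine h2.trans (h1.trans ?_)
  set E : ℕ := A * B * ((A : ℤ) - B).natAbs with hE
  have hne : ((A : ℤ) - B).natAbs ≠ 0 := by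
    rw [Ne, Int.natAbs_eq_zero]
    omega
  have hE0 : E ≠ 0 := Nat.mul_ne_zero (Nat.mul_ne_zero (by omega) (by omega)) hne
  have h3 := hr E hE0
  have hA1 : (1 : ℝ) ≤ A := by exact_mod_cast hA
  have hB1 : (1 : ℝ) ≤ B := by exact_mod_cast hB
  have hll := log_log_add_ten_ge (A + B) (by positivity)
  have hElog : Real.log (Real.log (E + 10)) ≤ 6 * Real.log (Real.log (A + B + 10)) := by
    have h4 : (E : ℝ) + 10 ≤ ((A : ℝ) + B + 10) ^ 3 := by
      have h5 : ((A : ℤ) - B).natAbs ≤ A + B := by omega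
      have h6 : E ≤ A * B * (A + B) := Nat.mul_le_mul_left _ h5
      have h7 : (E : ℝ) ≤ A * B * (A + B) := by exact_mod_cast h6
      have h8 : (A : ℝ) * B * (A + B) + 10 ≤ ((A : ℝ) + B + 10) ^ 3 := by
        have e : ((A : ℝ) + B + 10) ^ 3 = A * B * (A + B) + (A ^ 3 + B ^ 3 + 2 * (A * B * (A + B)) +
          30 * (A + B) ^ 2 + 300 * (A + B) + 1000) := by ring
        rw [e]
        have : 0 ≤ (A : ℝ) ^ 3 + B ^ 3 + 2 * (A * B * (A + B)) +
          30 * (A + B) ^ 2 + 300 * (A + B) := by positivity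
        linarith
      linarith
    have h5 : Real.log (E + 10) ≤ 3 * Real.log (A + B + 10) := by
      have := Real.log_le_log (by positivity) h4
      rw [Real.log_pow] at this
      exact_mod_cast this
    have h6 : (2 : ℝ) ≤ Real.log (A + B + 10) := by
      have h4 : Real.log 8 ≤ Real.log (A + B + 10) :=
        Real.log_le_log (by norm_num) (by linarith)
      have h5 : Real.log 8 = 3 * Real.log 2 := by
        rw [show (8 : ℝ) = 2 ^ 3 by norm_num, Real.log_pow]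
        norm_num
      have h6 := Real.log_two_gt_d9
      linarith
    have h7 : 3 * Real.log (A + B + 10) ≤ Real.log (A + B + 10) ^ 6 := by
      have e : Real.log ((A : ℝ) + B + 10) ^ 6 =
        Real.log (A + B + 10) * Real.log (A + B + 10) ^ 5 := by ring
      have h8 : (32 : ℝ) ≤ Real.log ((A : ℝ) + B + 10) ^ 5 := by
        calc (32 : ℝ) = 2 ^ 5 := by norm_num
          _ ≤ _ := pow_le_pow_left₀ (by norm_num) h6 5
      rw [e]
      nlinarith
    have h8 : 0 < Real.log ((E : ℝ) + 10) := Real.log_pos (by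
      have : (0 : ℝ) ≤ E := Nat.cast_nonneg E
      linarith)
    have h9 := Real.log_le_log h8 (h5.trans h7)
    rw [Real.log_pow] at h9
    exact_mod_cast h9
  have h0 : 0 ≤ (E : ℝ) / Nat.totient E := by positivity
  have h4 : ((E : ℝ) / Nat.totient E) ^ 3 ≤
      (D * (6 * Real.log (Real.log (A + B + 10)))) ^ 3 := by
    apply pow_le_pow_left₀ h0
    exact h3.trans (mul_le_mul_of_nonneg_left hElog hD.le)
  have hl0 : 0 < Real.log ⌊Q⌋₊ := Real.log_pos (by linarith)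
  have h5 : 1 / Real.log ⌊Q⌋₊ ≤ 2 / Real.log Q := by
    rw [div_le_div_iff₀ hl0 hlQ]
    linarith
  have h6 : (1 / Real.log ⌊Q⌋₊) ^ 2 ≤ (2 / Real.log Q) ^ 2 :=
    pow_le_pow_left₀ (by positivity) h5 2
  calc C * ((E : ℝ) / Nat.totient E) ^ 3 / Real.log ⌊Q⌋₊ ^ 2
      = C * ((E : ℝ) / Nat.totient E) ^ 3 * (1 / Real.log ⌊Q⌋₊) ^ 2 := by
        rw [one_div, inv_pow]
        ring
    _ ≤ C * (D * (6 * Real.log (Real.log (A + B + 10)))) ^ 3 * (2 / Real.log Q) ^ 2 := by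
        gcongr
    _ = _ := by
        rw [div_pow]
        ring

end Crest.Agent.Lib.LinSieve
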