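import Mathlib

/-! Counting `n ≤ N` with `d ∣ ∏ (a i n + b i)`, `d` squarefree with good prime factors. -/

set_option autoImplicit false

namespace Crest.Agent.Lib.LinSieve

open Finset

variable {ι : Type} [Fintype ι] [DecidableEq ι]

/-- the product of the linear forms -/
def lform (a b : ι → ℕ) (n : ℕ) : ℕ := ∏ i, (a i * n + b i)

/-- good prime: larger than the number of forms, all slopes invertible, the roots distinct. -/
def Good (a b : ι → ℕ) (p : ℕ) : Prop :=
  p.Prime ∧ Fintype.card ι < p ∧ (∀ i, ¬ p ∣ a i) ∧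
    ∀ i j, i ≠ j → ¬ (p : ℤ) ∣ ((a i : ℤ) * b j - (a j : ℤ) * b i)

/-- zeros modulo `d` -/
def zeroSet (a b : ι → ℕ) (d : ℕ) [NeZero d] : Finset (ZMod d) :=
  Finset.univ.filter fun x => ∏ i, ((a i : ZMod d) * x + (b i : ZMod d)) = 0

lemma card_zeroSet_prime (a b : ι → ℕ) (p : ℕ) [NeZero p] (hp : Good a b p) :
    (zeroSet a b p).card = Fintype.card ι := by
  obtain ⟨hpp, -, ha, hab⟩ := hp
  have : Fact p.Prime := ⟨hpp⟩
  have ha' : ∀ i, (a i : ZMod p) ≠ 0 := fun i h =>
    ha i ((ZMod.natCast_eq_zero_iff _ _).1 h)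
  have h1 : zeroSet a b p = Finset.univ.image (fun i => -(b i : ZMod p) * (a i : ZMod p)⁻¹) := by
    ext x
    simp only [zeroSet, Finset.mem_filter, Finset.mem_univ, true_and, Finset.prod_eq_zero_iff,
      Finset.mem_image]
    constructor
    · rintro ⟨i, hi⟩
      refine ⟨i, ?_⟩
      have h2 : (a i : ZMod p) * x = -(b i : ZMod p) := eq_neg_of_add_eq_zero_left hi
      rw [← h2, mul_comm (a i : ZMod p) x, mul_assoc, mul_inv_cancel₀ (ha' i), mul_one]
    · rintro ⟨i, rfl⟩
      refine ⟨i, ?_⟩
      have := ha' i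
      field_simp
      ring
  rw [h1, Finset.card_image_of_injective, Finset.card_univ]
  intro i j hij
  by_contra hne
  apply hab i j hne
  rw [← ZMod.intCast_zmod_eq_zero_iff_dvd _ p]
  push_cast
  have h2 := ha' i
  have h3 := ha' j
  simp only at hij
  field_simp at hij
  linear_combination hij

lemma card_zeroSet_mul (a b : ι → ℕ) (m n : ℕ) [NeZero m] [NeZero n] [NeZero (m * n)]
    (h : Nat.Coprime m n) :
    (zeroSet a b (m * n)).card = (zeroSet a b m).card * (zeroSet a b n).card := by
  rw [← Finset.card_product]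
  let e := ZMod.chineseRemainder h
  apply Finset.card_bij (fun x _ => e x)
  · intro x hx
    simp only [zeroSet, Finset.mem_filter, Finset.mem_univ, true_and, Finset.mem_product] at hx ⊢
    have h1 := congrArg e hx
    rw [map_prod, map_zero] at h1
    have h2 : ∀ i, e ((a i : ZMod (m * n)) * x + (b i : ZMod (m * n))) =
        (((a i : ZMod m) * (e x).1 + (b i : ZMod m)), ((a i : ZMod n) * (e x).2 + (b i : ZMod n))) := by
      intro i
      rw [map_add, map_mul, map_natCast, map_natCast]
      rfl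
    simp only [h2] at h1
    have h3 := congrArg Prod.fst h1
    have h4 := congrArg Prod.snd h1
    rw [Prod.fst_prod] at h3
    rw [Prod.snd_prod] at h4
    exact ⟨h3, h4⟩
  · intro x _ y _ hxy
    exact e.injective hxy
  · intro y hy
    refine ⟨e.symm y, ?_, e.apply_symm_apply y⟩
    simp only [zeroSet, Finset.mem_filter, Finset.mem_univ, true_and, Finset.mem_product] at hy ⊢
    apply e.injective
    rw [map_prod, map_zero]
    have h2 : ∀ i, e ((a i : ZMod (m * n)) * e.symm y + (b i : ZMod (m * n))) =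
        (((a i : ZMod m) * y.1 + (b i : ZMod m)), ((a i : ZMod n) * y.2 + (b i : ZMod n))) := by
      intro i
      rw [map_add, map_mul, map_natCast, map_natCast, e.apply_symm_apply]
      rfl
    simp only [h2]
    ext
    · rw [Prod.fst_prod]; exact hy.1
    · rw [Prod.snd_prod]; exact hy.2

lemma card_zeroSet_prod (a b : ι → ℕ) (S : Finset ℕ) (hS : ∀ p ∈ S, Good a b p)
    (d : ℕ) [NeZero d] (hd : d = ∏ p ∈ S, p) :
    (zeroSet a b d).card = Fintype.card ι ^ S.card := by
  induction S using Finset.induction_on generalizing d with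
  | empty =>
    simp only [Finset.prod_empty] at hd
    subst hd
    simp only [Finset.card_empty, pow_zero]
    rw [zeroSet, Finset.filter_true_of_mem]
    · simp
    · intro x _
      exact Subsingleton.elim _ _
  | insert p S hp ih =>
    rw [Finset.prod_insert hp] at hd
    have hpg := hS p (Finset.mem_insert_self _ _)
    have hS' : ∀ q ∈ S, Good a b q := fun q hq => hS q (Finset.mem_insert_of_mem hq)
    have : NeZero p := ⟨hpg.1.ne_zero⟩
    have : NeZero (∏ q ∈ S, q) := ⟨Finset.prod_ne_zero_iff.2 fun q hq => (hS' q hq).1.ne_zero⟩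
    subst hd
    have hc : Nat.Coprime p (∏ q ∈ S, q) := by
      apply Nat.Coprime.prod_right
      intro q hq
      rw [Nat.coprime_primes hpg.1 (hS' q hq).1]
      rintro rfl
      exact hp hq
    rw [card_zeroSet_mul a b p _ hc, card_zeroSet_prime a b p hpg, ih hS' _ rfl,
      Finset.card_insert_of_notMem hp, pow_succ, mul_comm]

/-- number of `n ∈ (0, N]` in a fixed residue class. -/
lemma card_class (N d : ℕ) (hd : 0 < d) (v : ℕ) :
    |(((Finset.Ioc 0 N).filter (fun n => n ≡ v [MOD d])).card : ℝ) - N / d| ≤ 1 := by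
  have h := Nat.Ioc_filter_modEq_card 0 N hd v
  have hd' : (0 : ℚ) < d := by exact_mod_cast hd
  have h2 : ((((Finset.Ioc 0 N).filter (fun n => n ≡ v [MOD d])).card : ℤ) : ℚ) =
      max (((⌊((N : ℚ) - v) / d⌋ - ⌊((0 : ℕ) - v : ℚ) / d⌋ : ℤ)) : ℚ) 0 := by
    rw [h]
    push_cast
    rfl
  have h3 : |((((Finset.Ioc 0 N).filter (fun n => n ≡ v [MOD d])).card : ℤ) : ℚ) - N / d| ≤ 1 := by
    rw [h2]
    have f1 := Int.floor_le (((N : ℚ) - v) / d)
    have f2 := Int.lt_floor_add_one (((N : ℚ) - v) / d)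
    have f3 := Int.floor_le (((0 : ℕ) - v : ℚ) / d)
    have f4 := Int.lt_floor_add_one (((0 : ℕ) - v : ℚ) / d)
    have e1 : ((N : ℚ) - v) / d - ((0 : ℕ) - v : ℚ) / d = N / d := by
      push_cast
      ring
    have hN : (0 : ℚ) ≤ N / d := by positivity
    push_cast at f1 f2 f3 f4 e1 ⊢
    rw [abs_le]
    constructor
    · rcases le_max_left ((⌊((N : ℚ) - v) / d⌋ : ℚ) - ⌊(0 - v : ℚ) / d⌋) 0 with h5
      linarith
    · rw [sub_le_iff_le_add]
      apply max_le
      · linarith
      · linarith
  have h4 : (((|((((Finset.Ioc 0 N).filter (fun n => n ≡ v [MOD d])).card : ℤ) : ℚ) - N / d|) : ℚ) : ℝ)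
      ≤ ((1 : ℚ) : ℝ) := by exact_mod_cast h3
  push_cast at h4
  exact h4

/-- main counting lemma -/
theorem card_dvd_lform (a b : ι → ℕ) (N d : ℕ) (hd : Squarefree d)
    (hg : ∀ p, p.Prime → p ∣ d → Good a b p) :
    |(((Finset.Ioc 0 N).filter (fun n => d ∣ lform a b n)).card : ℝ) -
        (Fintype.card ι : ℝ) ^ d.primeFactors.card * N / d| ≤
      (Fintype.card ι : ℝ) ^ d.primeFactors.card := by
  have hd0 : d ≠ 0 := hd.ne_zero
  have : NeZero d := ⟨hd0⟩
  have hz : (zeroSet a b d).card = Fintype.card ι ^ d.primeFactors.card :=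
    card_zeroSet_prod a b d.primeFactors
      (fun p hp => hg p (Nat.prime_of_mem_primeFactors hp) (Nat.dvd_of_mem_primeFactors hp)) d
      (Nat.prod_primeFactors_of_squarefree hd).symm
  have h1 : ((Finset.Ioc 0 N).filter (fun n => d ∣ lform a b n)).card =
      ∑ x ∈ zeroSet a b d, ((Finset.Ioc 0 N).filter (fun n => n ≡ x.val [MOD d])).card := by
    rw [Finset.card_eq_sum_card_fiberwise (f := fun n : ℕ => (n : ZMod d)) (t := zeroSet a b d)]
    · apply Finset.sum_congr rfl
      intro x hx
      congr 1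
      ext n
      simp only [Finset.mem_filter]
      constructor
      · rintro ⟨⟨h2, h3⟩, h4⟩
        refine ⟨h2, ?_⟩
        rw [← ZMod.natCast_eq_natCast_iff, h4, ZMod.natCast_zmod_val]
      · rintro ⟨h2, h3⟩
        rw [← ZMod.natCast_eq_natCast_iff, ZMod.natCast_zmod_val] at h3
        refine ⟨⟨h2, ?_⟩, h3⟩
        rw [← ZMod.natCast_eq_zero_iff]
        simp only [zeroSet, Finset.mem_filter, Finset.mem_univ, true_and] at hx
        unfold lform
        push_cast
        rw [h3]
        exact hx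
    · intro n hn
      simp only [Finset.coe_filter, Set.mem_ofPred_eq] at hn
      simp only [zeroSet, Finset.coe_filter, Finset.mem_univ, true_and, Set.mem_ofPred_eq]
      have h2 := (ZMod.natCast_eq_zero_iff (lform a b n) d).2 hn.2
      unfold lform at h2
      push_cast at h2
      exact h2
  rw [h1]
  push_cast
  have h2 : (Fintype.card ι : ℝ) ^ d.primeFactors.card * N / d =
      ∑ x ∈ zeroSet a b d, (N : ℝ) / d := by
    rw [Finset.sum_const, hz, nsmul_eq_mul]
    push_cast
    ring
  rw [h2, ← Finset.sum_sub_distrib]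
  refine (Finset.abs_sum_le_sum_abs _ _).trans ?_
  calc ∑ x ∈ zeroSet a b d,
        |(((Finset.Ioc 0 N).filter (fun n => n ≡ x.val [MOD d])).card : ℝ) - N / d|
      ≤ ∑ x ∈ zeroSet a b d, (1 : ℝ) :=
        Finset.sum_le_sum fun x _ => card_class N d (Nat.pos_of_ne_zero hd0) _
    _ = _ := by
        rw [Finset.sum_const, hz, nsmul_eq_mul]
        push_cast
        ring

end Crest.Agent.Lib.LinSieve
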