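import Crest.Agent.Lib.LinSieve.Selberg
import Crest.Agent.Lib.LinSieve.Count
import Crest.Agent.Lib.Mertens

/-! Upper bound sieve for several linear forms: main theorem. -/

set_option autoImplicit false

namespace Crest.Agent.Lib.LinSieve

open Finset ArithmeticFunction BoundingSieve

/-- the density `ν(d) = k^{ω(d)}/d`. -/
noncomputable def nuk (k : ℕ) : ArithmeticFunction ℝ :=
  ⟨fun d => if d = 0 then 0 else (k : ℝ) ^ d.primeFactors.card / d, by simp⟩

lemma nuk_apply (k d : ℕ) (hd : d ≠ 0) : nuk k d = (k : ℝ) ^ d.primeFactors.card / d := by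
  simp [nuk, hd]

lemma nuk_prime (k p : ℕ) (hp : p.Prime) : nuk k p = (k : ℝ) / p := by
  rw [nuk_apply k p hp.ne_zero, Nat.Prime.primeFactors hp]
  simp

lemma nuk_mult (k : ℕ) : (nuk k).IsMultiplicative := by
  rw [IsMultiplicative.iff_ne_zero]
  refine ⟨by simp [nuk], fun {m n} hm hn hc => ?_⟩
  rw [nuk_apply k _ (mul_ne_zero hm hn), nuk_apply k _ hm, nuk_apply k _ hn,
    hc.primeFactors_mul, Finset.card_union_of_disjoint hc.disjoint_primeFactors, pow_add]
  push_cast
  field_simp

variable {k : ℕ}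

/-- The sieve problem for the values of the product of the linear forms. -/
noncomputable def theSieve (hk : 1 ≤ k) (a b : Fin k → ℕ) (N P : ℕ) (hP : Squarefree P)
    (hg : ∀ p, p.Prime → p ∣ P → Good a b p) : BoundingSieve where
  support := (Finset.Ioc 0 N).image (lform a b)
  prodPrimes := P
  prodPrimes_squarefree := hP
  weights := fun v => (((Finset.Ioc 0 N).filter (fun n => lform a b n = v)).card : ℝ)
  weights_nonneg := fun _ => Nat.cast_nonneg _
  totalMass := N
  nu := nuk k
  nu_mult := nuk_mult k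
  nu_pos_of_prime := fun p hp _ => by
    rw [nuk_prime k p hp]
    have : (0 : ℝ) < k := by exact_mod_cast hk
    have h2 : (0 : ℝ) < p := by exact_mod_cast hp.pos
    positivity
  nu_lt_one_of_prime := fun p hp hpP => by
    rw [nuk_prime k p hp]
    have h1 := (hg p hp hpP).2.1
    rw [Fintype.card_fin] at h1
    have h2 : (0 : ℝ) < p := by exact_mod_cast hp.pos
    rw [div_lt_one h2]
    exact_mod_cast h1

lemma theSieve_multSum (a b : Fin k → ℕ) (N : ℕ) (Q : ℕ → Prop) [DecidablePred Q] :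
    (∑ v ∈ (Finset.Ioc 0 N).image (lform a b),
      if Q v then (((Finset.Ioc 0 N).filter (fun n => lform a b n = v)).card : ℝ) else 0) =
    (((Finset.Ioc 0 N).filter (fun n => Q (lform a b n))).card : ℝ) := by
  rw [← Finset.sum_filter]
  rw [Finset.card_eq_sum_card_fiberwise (f := lform a b)
    (t := ((Finset.Ioc 0 N).image (lform a b)).filter Q)]
  · push_cast
    apply Finset.sum_congr rfl
    intro v hv
    rw [Finset.mem_filter] at hv
    congr 2
    ext n
    simp only [Finset.mem_filter]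
    constructor
    · rintro ⟨h1, h2⟩
      exact ⟨⟨h1, by rw [h2]; exact hv.2⟩, h2⟩
    · rintro ⟨⟨h1, _⟩, h2⟩
      exact ⟨h1, h2⟩
  · intro n hn
    simp only [Finset.coe_filter, Set.mem_ofPred_eq] at hn
    simp only [Finset.coe_filter, Set.mem_ofPred_eq, Finset.mem_image]
    exact ⟨⟨n, hn.1, rfl⟩, hn.2⟩

lemma theSieve_siftedSum (hk : 1 ≤ k) (a b : Fin k → ℕ) (N P : ℕ) (hP : Squarefree P)
    (hg : ∀ p, p.Prime → p ∣ P → Good a b p) :
    (theSieve hk a b N P hP hg).siftedSum =
      (((Finset.Ioc 0 N).filter (fun n => Nat.Coprime P (lform a b n))).card : ℝ) :=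
  theSieve_multSum a b N (fun v => Nat.Coprime P v)

lemma theSieve_rem (hk : 1 ≤ k) (a b : Fin k → ℕ) (N P : ℕ) (hP : Squarefree P)
    (hg : ∀ p, p.Prime → p ∣ P → Good a b p) (d : ℕ) (hd : d ∣ P) :
    |(theSieve hk a b N P hP hg).rem d| ≤ d := by
  have hd0 : d ≠ 0 := ne_zero_of_dvd_ne_zero hP.ne_zero hd
  have h1 : (theSieve hk a b N P hP hg).multSum d =
      (((Finset.Ioc 0 N).filter (fun n => d ∣ lform a b n)).card : ℝ) :=
    theSieve_multSum a b N (fun v => d ∣ v)
  have h2 := card_dvd_lform a b N d (hP.squarefree_of_dvd hd)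
    (fun p hp hpd => hg p hp (hpd.trans hd))
  rw [Fintype.card_fin] at h2
  have h3 : (theSieve hk a b N P hP hg).rem d =
      (((Finset.Ioc 0 N).filter (fun n => d ∣ lform a b n)).card : ℝ) -
        (k : ℝ) ^ d.primeFactors.card * N / d := by
    rw [BoundingSieve.rem, h1]
    change _ - nuk k d * (N : ℝ) = _
    rw [nuk_apply k d hd0]
    ring
  rw [h3]
  refine h2.trans ?_
  have h4 : ∏ p ∈ d.primeFactors, p = d :=
    Nat.prod_primeFactors_of_squarefree (hP.squarefree_of_dvd hd)
  have h5 : k ^ d.primeFactors.card ≤ ∏ p ∈ d.primeFactors, p := by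
    rw [← Finset.prod_const]
    apply Finset.prod_le_prod'
    intro p hp
    have := (hg p (Nat.prime_of_mem_primeFactors hp)
      ((Nat.dvd_of_mem_primeFactors hp).trans hd)).2.1
    rw [Fintype.card_fin] at this
    exact this.le
  rw [h4] at h5
  exact_mod_cast h5

lemma error_le (hk : 1 ≤ k) (a b : Fin k → ℕ) (N P : ℕ) (hP : Squarefree P)
    (hg : ∀ p, p.Prime → p ∣ P → Good a b p) (z : ℕ) :
    ∑ d1 ∈ P.divisors with d1 ≤ z, ∑ d2 ∈ P.divisors with d2 ≤ z,
        |(theSieve hk a b N P hP hg).rem (Nat.lcm d1 d2)| ≤ (z : ℝ) ^ 4 := by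
  have h1 : ∀ d1 ∈ P.divisors.filter (fun d => d ≤ z), ∀ d2 ∈ P.divisors.filter (fun d => d ≤ z),
      |(theSieve hk a b N P hP hg).rem (Nat.lcm d1 d2)| ≤ (z : ℝ) ^ 2 := by
    intro d1 h1 d2 h2
    rw [Finset.mem_filter, Nat.mem_divisors] at h1 h2
    refine (theSieve_rem hk a b N P hP hg _ (Nat.lcm_dvd h1.1.1 h2.1.1)).trans ?_
    have h3 : Nat.lcm d1 d2 ≤ d1 * d2 := by
      apply Nat.le_of_dvd
      · apply Nat.mul_pos
        · exact Nat.pos_of_ne_zero (ne_zero_of_dvd_ne_zero h1.1.2 h1.1.1)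
        · exact Nat.pos_of_ne_zero (ne_zero_of_dvd_ne_zero h2.1.2 h2.1.1)
      · exact Nat.lcm_dvd (dvd_mul_right _ _) (dvd_mul_left _ _)
    have h4 : Nat.lcm d1 d2 ≤ z * z := h3.trans (Nat.mul_le_mul h1.2 h2.2)
    rw [sq]
    exact_mod_cast h4
  have hc : ((P.divisors.filter (fun d => d ≤ z)).card : ℝ) ≤ z := by
    have : P.divisors.filter (fun d => d ≤ z) ⊆ Finset.Ioc 0 z := by
      intro d hd
      rw [Finset.mem_filter, Nat.mem_divisors] at hd
      rw [Finset.mem_Ioc]
      exact ⟨Nat.pos_of_ne_zero (ne_zero_of_dvd_ne_zero hd.1.2 hd.1.1), hd.2⟩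
    have h2 := Finset.card_le_card this
    rw [Nat.card_Ioc] at h2
    exact_mod_cast h2
  calc _ ≤ ∑ d1 ∈ P.divisors with d1 ≤ z, ∑ d2 ∈ P.divisors with d2 ≤ z, (z : ℝ) ^ 2 :=
        Finset.sum_le_sum fun d1 hd1 => Finset.sum_le_sum fun d2 hd2 => h1 d1 hd1 d2 hd2
    _ = ((P.divisors.filter (fun d => d ≤ z)).card : ℝ) ^ 2 * (z : ℝ) ^ 2 := by
        simp only [Finset.sum_const, nsmul_eq_mul]
        ring
    _ ≤ (z : ℝ) ^ 2 * (z : ℝ) ^ 2 := by
        apply mul_le_mul_of_nonneg_right _ (by positivity)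
        exact pow_le_pow_left₀ (Nat.cast_nonneg _) hc 2
    _ = _ := by ring

/-- Rankin: multiplicative weight `∏_{p ∣ l} x p`. -/
lemma rankin_sum (s : BoundingSieve) (x : ℕ → ℝ) :
    ∑ l ∈ s.prodPrimes.divisors, s.selbergTerms l * ∏ p ∈ l.primeFactors, x p =
      ∏ p ∈ s.prodPrimes.primeFactors, (1 + s.selbergTerms p * x p) := by
  have hP := s.prodPrimes_squarefree
  let f : ArithmeticFunction ℝ := s.selbergTerms.pmul (.prodPrimeFactors x)
  have hf : f.IsMultiplicative :=
    (selbergTerms_isMultiplicative (s := s)).pmul (IsMultiplicative.prodPrimeFactors x)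
  have h1 := hf.prodPrimeFactors_one_add_of_squarefree hP
  have h2 : ∀ p ∈ s.prodPrimes.primeFactors, (1 + f p) = 1 + s.selbergTerms p * x p := by
    intro p hp
    have hpp := Nat.prime_of_mem_primeFactors hp
    change 1 + (s.selbergTerms.pmul (.prodPrimeFactors x)) p = _
    rw [ArithmeticFunction.pmul_apply, ArithmeticFunction.prodPrimeFactors_apply hpp.ne_zero,
      hpp.primeFactors]
    simp
  rw [Finset.prod_congr rfl h2] at h1
  rw [h1]
  apply Finset.sum_congr rfl
  intro l hl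
  rw [Nat.mem_divisors] at hl
  change _ = (s.selbergTerms.pmul (.prodPrimeFactors x)) l
  rw [ArithmeticFunction.pmul_apply,
    ArithmeticFunction.prodPrimeFactors_apply (ne_zero_of_dvd_ne_zero hl.2 hl.1)]

lemma selbergTerms_prime (s : BoundingSieve) (p : ℕ) (hp : p.Prime) :
    s.selbergTerms p = s.nu p * (1 - s.nu p)⁻¹ := by
  rw [selbergTerms_apply, hp.primeFactors]
  simp

/-- lower bound for the Selberg sum by Rankin's trick: `G(z) ≥ 1/2 ∏ (1 - ν(p))⁻¹`. -/
lemma selG_ge (s : BoundingSieve) (y : ℝ) (hy : 2 ≤ y) (v : ℕ) (z : ℕ) (hz : y ^ v < z + 1)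
    (hPy : ∀ p ∈ s.prodPrimes.primeFactors, (p : ℝ) ≤ y)
    (hsum : ∑ p ∈ s.prodPrimes.primeFactors, s.nu p * (2 * Real.log p / Real.log y) + 1 ≤ v) :
    (1 / 2) * ∏ p ∈ s.prodPrimes.primeFactors, (1 - s.nu p)⁻¹ ≤ selG s z := by
  have hP := s.prodPrimes_squarefree
  have hP0 : s.prodPrimes ≠ 0 := prodPrimes_ne_zero
  have hly : 0 < Real.log y := Real.log_pos (by linarith)
  set x : ℕ → ℝ := fun p => Real.exp (Real.log p / Real.log y) with hx
  have hx0 : ∀ p, 0 < x p := fun p => Real.exp_pos _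
  have hnu : ∀ p ∈ s.prodPrimes.primeFactors, 0 < s.nu p ∧ s.nu p < 1 := by
    intro p hp
    have h1 := Nat.prime_of_mem_primeFactors hp
    have h2 := Nat.dvd_of_mem_primeFactors hp
    exact ⟨s.nu_pos_of_prime p h1 h2, s.nu_lt_one_of_prime p h1 h2⟩
  have hg : ∀ p ∈ s.prodPrimes.primeFactors, 1 + s.selbergTerms p = (1 - s.nu p)⁻¹ := by
    intro p hp
    rw [selbergTerms_prime s p (Nat.prime_of_mem_primeFactors hp)]
    have h1 : 1 - s.nu p ≠ 0 := by linarith [(hnu p hp).2]
    field_simp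
    ring
  -- total sum
  have htot : ∑ l ∈ s.prodPrimes.divisors, s.selbergTerms l =
      ∏ p ∈ s.prodPrimes.primeFactors, (1 - s.nu p)⁻¹ := by
    have := rankin_sum s (fun _ => 1)
    simp only [Finset.prod_const_one, mul_one] at this
    rw [this]
    exact Finset.prod_congr rfl hg
  -- the tail
  have hprodx : ∀ l ∈ s.prodPrimes.divisors, z < l →
      Real.exp v ≤ ∏ p ∈ l.primeFactors, x p := by
    intro l hl hzl
    rw [Nat.mem_divisors] at hl
    have hlsq := hP.squarefree_of_dvd hl.1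
    have h1 : ∏ p ∈ l.primeFactors, x p = Real.exp (Real.log l / Real.log y) := by
      rw [hx, ← Real.exp_sum, ← Finset.sum_div]
      congr 2
      conv_rhs => rw [← Nat.prod_primeFactors_of_squarefree hlsq]
      push_cast
      rw [Real.log_prod]
      intro p hp
      exact_mod_cast (Nat.prime_of_mem_primeFactors hp).ne_zero
    rw [h1, Real.exp_le_exp, le_div_iff₀ hly, ← Real.log_pow]
    apply Real.log_le_log (by positivity)
    have h2 : (z : ℝ) + 1 ≤ l := by exact_mod_cast hzl
    linarith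
  have htail : ∑ l ∈ s.prodPrimes.divisors with ¬ l ≤ z, s.selbergTerms l ≤
      (1 / 2) * ∏ p ∈ s.prodPrimes.primeFactors, (1 - s.nu p)⁻¹ := by
    have hprodpos : 0 < ∏ p ∈ s.prodPrimes.primeFactors, (1 - s.nu p)⁻¹ := by
      apply Finset.prod_pos
      intro p hp
      rw [inv_pos]
      linarith [(hnu p hp).2]
    have h1 : Real.exp v * ∑ l ∈ s.prodPrimes.divisors with ¬ l ≤ z, s.selbergTerms l ≤
        ∏ p ∈ s.prodPrimes.primeFactors, (1 + s.selbergTerms p * x p) := by
      rw [← rankin_sum s x, Finset.mul_sum]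
      refine (Finset.sum_le_sum (g := fun l => s.selbergTerms l * ∏ p ∈ l.primeFactors, x p)
        ?_).trans ?_
      · intro l hl
        rw [Finset.mem_filter] at hl
        have h2 := hprodx l hl.1 (not_le.1 hl.2)
        have h3 := selbergTerms_pos (Nat.mem_divisors.1 hl.1).1
        rw [mul_comm]
        exact mul_le_mul_of_nonneg_left h2 h3.le
      · apply Finset.sum_le_sum_of_subset_of_nonneg (Finset.filter_subset _ _)
        intro l hl _
        have h3 := selbergTerms_pos (Nat.mem_divisors.1 hl).1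
        have : 0 ≤ ∏ p ∈ l.primeFactors, x p := Finset.prod_nonneg fun p _ => (hx0 p).le
        positivity
    have h2 : ∏ p ∈ s.prodPrimes.primeFactors, (1 + s.selbergTerms p * x p) ≤
        Real.exp ((v : ℝ) - 1) * ∏ p ∈ s.prodPrimes.primeFactors, (1 - s.nu p)⁻¹ := by
      have h3 : ∀ p ∈ s.prodPrimes.primeFactors, 1 + s.selbergTerms p * x p ≤
          Real.exp (s.nu p * (2 * Real.log p / Real.log y)) * (1 - s.nu p)⁻¹ := by
        intro p hp
        have hpp := Nat.prime_of_mem_primeFactors hp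
        have hnup := hnu p hp
        have h4 : x p - 1 ≤ 2 * Real.log p / Real.log y := by
          have h5 : 0 ≤ Real.log p / Real.log y :=
            div_nonneg (Real.log_natCast_nonneg p) hly.le
          have h6 : Real.log p / Real.log y ≤ 1 := by
            rw [div_le_one hly]
            exact Real.log_le_log (by exact_mod_cast hpp.pos) (hPy p hp)
          have h7 := Real.abs_exp_sub_one_le (x := Real.log p / Real.log y)
            (by rw [abs_of_nonneg h5]; exact h6)
          rw [abs_of_nonneg h5] at h7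
          have h8 := (abs_le.1 h7).2
          rw [mul_div_assoc]
          exact h8
        have h9 : s.selbergTerms p = s.nu p * (1 - s.nu p)⁻¹ := selbergTerms_prime s p hpp
        have h10 : 0 < 1 - s.nu p := by linarith
        have h11 : 1 + s.selbergTerms p * x p = (1 + s.nu p * (x p - 1)) * (1 - s.nu p)⁻¹ := by
          rw [h9]
          field_simp
          ring
        rw [h11]
        apply mul_le_mul_of_nonneg_right _ (inv_pos.2 h10).le
        have h12 : s.nu p * (x p - 1) ≤ s.nu p * (2 * Real.log p / Real.log y) :=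
          mul_le_mul_of_nonneg_left h4 hnup.1.le
        have h13 := Real.add_one_le_exp (s.nu p * (2 * Real.log p / Real.log y))
        linarith
      calc ∏ p ∈ s.prodPrimes.primeFactors, (1 + s.selbergTerms p * x p)
          ≤ ∏ p ∈ s.prodPrimes.primeFactors,
            (Real.exp (s.nu p * (2 * Real.log p / Real.log y)) * (1 - s.nu p)⁻¹) := by
            apply Finset.prod_le_prod
            · intro p hp
              have h3 := selbergTerms_pos (Nat.dvd_of_mem_primeFactors hp)
              have := hx0 p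
              positivity
            · exact h3
        _ = Real.exp (∑ p ∈ s.prodPrimes.primeFactors,
              s.nu p * (2 * Real.log p / Real.log y)) *
            ∏ p ∈ s.prodPrimes.primeFactors, (1 - s.nu p)⁻¹ := by
            rw [Finset.prod_mul_distrib, Real.exp_sum]
        _ ≤ _ := by
            apply mul_le_mul_of_nonneg_right _ hprodpos.le
            rw [Real.exp_le_exp]
            linarith
    have h3 : Real.exp ((v : ℝ) - 1) ≤ Real.exp v * (1 / 2) := by
      rw [Real.exp_sub]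
      have h4 : (2 : ℝ) ≤ Real.exp 1 := by
        have := Real.add_one_le_exp (1 : ℝ)
        linarith
      have h5 : 0 < Real.exp (v : ℝ) := Real.exp_pos _
      rw [div_le_iff₀ (Real.exp_pos 1)]
      nlinarith
    have h6 : 0 < Real.exp (v : ℝ) := Real.exp_pos _
    have h7 : Real.exp v * ∑ l ∈ s.prodPrimes.divisors with ¬ l ≤ z, s.selbergTerms l ≤
        Real.exp v * ((1 / 2) * ∏ p ∈ s.prodPrimes.primeFactors, (1 - s.nu p)⁻¹) := by
      refine h1.trans (h2.trans ?_)
      rw [← mul_assoc]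
      exact mul_le_mul_of_nonneg_right h3 hprodpos.le
    exact le_of_mul_le_mul_left h7 h6
  have hsplit := Finset.sum_filter_add_sum_filter_not s.prodPrimes.divisors
    (fun l => l ≤ z) (fun l => s.selbergTerms l)
  rw [htot] at hsplit
  unfold selG
  linarith

/-- the sifting primes: `k < p ≤ y`, `p ∤ E` -/
noncomputable def siftPrimes (k E : ℕ) (y : ℝ) : Finset ℕ :=
  (Nat.primesLE ⌊y⌋₊).filter (fun p => k < p ∧ ¬ p ∣ E)

lemma mem_siftPrimes {k E p : ℕ} {y : ℝ} :
    p ∈ siftPrimes k E y ↔ (p ≤ ⌊y⌋₊ ∧ p.Prime) ∧ k < p ∧ ¬ p ∣ E := by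
  unfold siftPrimes
  rw [Finset.mem_filter, Nat.mem_primesLE]

lemma prod_siftPrimes_squarefree (k E : ℕ) (y : ℝ) :
    Squarefree (∏ p ∈ siftPrimes k E y, p) := by
  apply Finset.squarefree_prod_of_pairwise_isCoprime
  · intro p hp q hq hpq
    rw [Function.onFun, ← Nat.coprime_iff_isRelPrime,
      Nat.coprime_primes (mem_siftPrimes.1 hp).1.2 (mem_siftPrimes.1 hq).1.2]
    exact hpq
  · intro p hp
    exact (mem_siftPrimes.1 hp).1.2.squarefree

lemma primeFactors_prod_siftPrimes (k E : ℕ) (y : ℝ) :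
    (∏ p ∈ siftPrimes k E y, p).primeFactors = siftPrimes k E y :=
  Nat.primeFactors_prod fun _ hp => (mem_siftPrimes.1 hp).1.2

/-- `∏_{p ≤ y} (1-1/p) ≤ C / log y`. -/
lemma prod_primesLE_le : ∃ C : ℝ, 0 < C ∧ ∀ y : ℝ, 2 ≤ y →
    ∏ p ∈ Nat.primesLE ⌊y⌋₊, (1 - 1 / (p : ℝ)) ≤ C / Real.log y := by
  refine ⟨Real.exp (22 / Real.log 2) * Real.log 2, ?_, fun y hy => ?_⟩
  · have := Real.log_pos (show (1 : ℝ) < 2 by norm_num)
    positivity
  have h1 := (Mertens.mertens_three 2 y le_rfl hy).2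
  have hsub : Mertens.pr 2 y ⊆ Nat.primesLE ⌊y⌋₊ := by
    intro p hp
    rw [Mertens.mem_pr (by norm_num) (by linarith)] at hp
    rw [Nat.mem_primesLE]
    exact ⟨Nat.le_floor hp.1.2, hp.2⟩
  have hb : ∀ p ∈ Nat.primesLE ⌊y⌋₊, 0 ≤ 1 - 1 / (p : ℝ) ∧ 1 - 1 / (p : ℝ) ≤ 1 := by
    intro p hp
    rw [Nat.mem_primesLE] at hp
    have h2 : (2 : ℝ) ≤ p := by exact_mod_cast hp.2.two_le
    have h3 : 1 / (p : ℝ) ≤ 1 / 2 := one_div_le_one_div_of_le (by norm_num) h2
    have h4 : 0 < 1 / (p : ℝ) := by positivity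
    constructor <;> linarith
  have h2 : ∏ p ∈ Nat.primesLE ⌊y⌋₊, (1 - 1 / (p : ℝ)) ≤
      ∏ p ∈ Mertens.pr 2 y, (1 - 1 / (p : ℝ)) := by
    rw [← Finset.prod_sdiff hsub]
    refine mul_le_of_le_one_left ?_ ?_
    · exact Finset.prod_nonneg fun p hp => (hb p (hsub hp)).1
    · exact Finset.prod_le_one (fun p hp => (hb p (Finset.sdiff_subset hp)).1)
        (fun p hp => (hb p (Finset.sdiff_subset hp)).2)
  refine h2.trans (h1.trans (le_of_eq ?_))
  ring

lemma prod_primeFactors_eq (E : ℕ) (hE : E ≠ 0) :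
    ∏ p ∈ E.primeFactors, (1 - 1 / (p : ℝ)) = (Nat.totient E : ℝ) / E := by
  have h := Nat.totient_eq_mul_prod_factors E
  have h2 : ((Nat.totient E : ℚ) : ℝ) =
      ((E * ∏ p ∈ E.primeFactors, (1 - (p : ℚ)⁻¹) : ℚ) : ℝ) := by rw [h]
  push_cast at h2
  rw [h2]
  have : (E : ℝ) ≠ 0 := by exact_mod_cast hE
  field_simp

lemma prod_small_ge (k : ℕ) (hk : 1 ≤ k) :
    (1 : ℝ) / k ≤ ∏ p ∈ Nat.primesLE k, (1 - 1 / (p : ℝ)) := by
  have hprod : ∏ j ∈ Finset.Icc 2 k, (1 - 1 / (j : ℝ)) = 1 / k := by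
    induction k, hk using Nat.le_induction with
    | base => simp
    | succ n hn ih =>
      rw [Finset.prod_Icc_succ_top (by omega), ih]
      have : (0 : ℝ) < n := by exact_mod_cast hn
      push_cast
      field_simp
      ring
  rw [← hprod]
  have hb : ∀ p ∈ Finset.Icc 2 k, 0 ≤ 1 - 1 / (p : ℝ) ∧ 1 - 1 / (p : ℝ) ≤ 1 := by
    intro p hp
    rw [Finset.mem_Icc] at hp
    have h2 : (2 : ℝ) ≤ p := by exact_mod_cast hp.1
    have h3 : 1 / (p : ℝ) ≤ 1 / 2 := one_div_le_one_div_of_le (by norm_num) h2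
    have h4 : 0 < 1 / (p : ℝ) := by positivity
    constructor <;> linarith
  have hsub : Nat.primesLE k ⊆ Finset.Icc 2 k := by
    intro p hp
    rw [Nat.mem_primesLE] at hp
    rw [Finset.mem_Icc]
    exact ⟨hp.2.two_le, hp.1⟩
  rw [← Finset.prod_sdiff hsub]
  refine mul_le_of_le_one_left ?_ ?_
  · exact Finset.prod_nonneg fun p hp => (hb p (hsub hp)).1
  · exact Finset.prod_le_one (fun p hp => (hb p (Finset.sdiff_subset hp)).1)
      (fun p hp => (hb p (Finset.sdiff_subset hp)).2)

/-- the product over the sifting primes -/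
lemma prod_sift_le (k : ℕ) (hk : 1 ≤ k) : ∃ C : ℝ, 0 < C ∧ ∀ (E : ℕ) (y : ℝ), E ≠ 0 → 2 ≤ y →
    ∏ p ∈ siftPrimes k E y, (1 - (k : ℝ) / p) ≤
      C * (1 / Real.log y) ^ k * ((E : ℝ) / Nat.totient E) ^ k := by
  obtain ⟨C, hC, h⟩ := prod_primesLE_le
  refine ⟨(C * k) ^ k, by positivity, fun E y hE hy => ?_⟩
  have hly : 0 < Real.log y := Real.log_pos (by linarith)
  have hEt : (0 : ℝ) < Nat.totient E := by
    exact_mod_cast Nat.totient_pos.2 (Nat.pos_of_ne_zero hE)
  have hE0 : (0 : ℝ) < E := by exact_mod_cast Nat.pos_of_ne_zero hE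
  have hk0 : (0 : ℝ) < k := by exact_mod_cast hk
  have hb : ∀ p : ℕ, p.Prime → 0 < 1 - 1 / (p : ℝ) ∧ 1 - 1 / (p : ℝ) ≤ 1 := by
    intro p hp
    have h2 : (2 : ℝ) ≤ p := by exact_mod_cast hp.two_le
    have h3 : 1 / (p : ℝ) ≤ 1 / 2 := one_div_le_one_div_of_le (by norm_num) h2
    have h4 : 0 < 1 / (p : ℝ) := by positivity
    constructor <;> linarith
  -- product of (1 - 1/p) over sifting primes
  have h1 : ∏ p ∈ siftPrimes k E y, (1 - 1 / (p : ℝ)) ≤
      (C / Real.log y) * (k * ((E : ℝ) / Nat.totient E)) := by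
    have hsub : siftPrimes k E y ⊆ Nat.primesLE ⌊y⌋₊ := Finset.filter_subset _ _
    have h2 := h y hy
    rw [← Finset.prod_sdiff hsub] at h2
    have h3 : ((1 : ℝ) / k) * ((Nat.totient E : ℝ) / E) ≤
        ∏ p ∈ Nat.primesLE ⌊y⌋₊ \ siftPrimes k E y, (1 - 1 / (p : ℝ)) := by
      have h4 : (Nat.primesLE ⌊y⌋₊ \ siftPrimes k E y) ⊆ Nat.primesLE k ∪ E.primeFactors := by
        intro p hp
        rw [Finset.mem_sdiff, Nat.mem_primesLE, mem_siftPrimes] at hp
        rw [Finset.mem_union, Nat.mem_primesLE, Nat.mem_primeFactors]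
        by_cases h5 : k < p
        · right
          refine ⟨hp.1.2, ?_, hE⟩
          by_contra h6
          exact hp.2 ⟨hp.1, h5, h6⟩
        · left
          exact ⟨not_lt.1 h5, hp.1.2⟩
      have hprime : ∀ p ∈ Nat.primesLE k ∪ E.primeFactors, p.Prime := by
        intro p hp
        rw [Finset.mem_union, Nat.mem_primesLE] at hp
        rcases hp with hp | hp
        · exact hp.2
        · exact Nat.prime_of_mem_primeFactors hp
      have h5 : ∏ p ∈ Nat.primesLE k ∪ E.primeFactors, (1 - 1 / (p : ℝ)) ≤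
          ∏ p ∈ Nat.primesLE ⌊y⌋₊ \ siftPrimes k E y, (1 - 1 / (p : ℝ)) := by
        rw [← Finset.prod_sdiff h4]
        refine mul_le_of_le_one_left ?_ ?_
        · exact Finset.prod_nonneg fun p hp => (hb p (hprime p (h4 hp))).1.le
        · exact Finset.prod_le_one
            (fun p hp => (hb p (hprime p (Finset.sdiff_subset hp))).1.le)
            (fun p hp => (hb p (hprime p (Finset.sdiff_subset hp))).2)
      refine le_trans ?_ h5
      have h6 : (∏ p ∈ Nat.primesLE k, (1 - 1 / (p : ℝ))) *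
          (∏ p ∈ E.primeFactors, (1 - 1 / (p : ℝ))) ≤
          ∏ p ∈ Nat.primesLE k ∪ E.primeFactors, (1 - 1 / (p : ℝ)) := by
        have h7 : ∏ p ∈ Nat.primesLE k ∪ E.primeFactors, (1 - 1 / (p : ℝ)) =
            (∏ p ∈ Nat.primesLE k, (1 - 1 / (p : ℝ))) *
              ∏ p ∈ E.primeFactors \ Nat.primesLE k, (1 - 1 / (p : ℝ)) := by
          rw [← Finset.union_sdiff_self_eq_union, Finset.prod_union Finset.disjoint_sdiff]
        rw [h7]
        apply mul_le_mul_of_nonneg_left
        · rw [← Finset.prod_sdiff (Finset.sdiff_subset : E.primeFactors \ Nat.primesLE k ⊆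
            E.primeFactors)]
          refine mul_le_of_le_one_left ?_ ?_
          · exact Finset.prod_nonneg fun p hp =>
              (hb p (Nat.prime_of_mem_primeFactors (Finset.sdiff_subset hp))).1.le
          · exact Finset.prod_le_one
              (fun p hp => (hb p (Nat.prime_of_mem_primeFactors (Finset.sdiff_subset hp))).1.le)
              (fun p hp => (hb p (Nat.prime_of_mem_primeFactors (Finset.sdiff_subset hp))).2)
        · exact Finset.prod_nonneg fun p hp => (hb p (Nat.mem_primesLE.1 hp).2).1.le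
      refine le_trans ?_ h6
      rw [prod_primeFactors_eq E hE]
      apply mul_le_mul_of_nonneg_right (prod_small_ge k hk)
      positivity
    have h4 : 0 ≤ ∏ p ∈ siftPrimes k E y, (1 - 1 / (p : ℝ)) :=
      Finset.prod_nonneg fun p hp => (hb p (mem_siftPrimes.1 hp).1.2).1.le
    have h5 : ((1 : ℝ) / k) * ((Nat.totient E : ℝ) / E) *
        ∏ p ∈ siftPrimes k E y, (1 - 1 / (p : ℝ)) ≤ C / Real.log y :=
      (mul_le_mul_of_nonneg_right h3 h4).trans h2
    have h6 : 0 < ((1 : ℝ) / k) * ((Nat.totient E : ℝ) / E) := by positivity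
    rw [← le_div_iff₀' h6] at h5
    refine h5.trans (le_of_eq ?_)
    field_simp
  calc ∏ p ∈ siftPrimes k E y, (1 - (k : ℝ) / p)
      ≤ ∏ p ∈ siftPrimes k E y, (1 - 1 / (p : ℝ)) ^ k := by
        apply Finset.prod_le_prod
        · intro p hp
          have h2 := (mem_siftPrimes.1 hp)
          have h3 : (k : ℝ) ≤ p := by exact_mod_cast h2.2.1.le
          have h4 : (0 : ℝ) < p := by exact_mod_cast h2.1.2.pos
          have : (k : ℝ) / p ≤ 1 := by
            rw [div_le_one h4]; exact h3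
          linarith
        · intro p hp
          have h2 := (mem_siftPrimes.1 hp)
          have h5 := (hb p h2.1.2)
          have h6 : (-2 : ℝ) ≤ -(1 / (p : ℝ)) := by linarith [h5.1]
          have h7 := one_add_mul_le_pow h6 k
          have e1 : 1 + (k : ℝ) * -(1 / (p : ℝ)) = 1 - (k : ℝ) / p := by ring
          have e2 : 1 + -(1 / (p : ℝ)) = 1 - 1 / (p : ℝ) := by ring
          rw [e1, e2] at h7
          exact h7
    _ = (∏ p ∈ siftPrimes k E y, (1 - 1 / (p : ℝ))) ^ k := by
        rw [Finset.prod_pow]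
    _ ≤ ((C / Real.log y) * (k * ((E : ℝ) / Nat.totient E))) ^ k := by
        apply pow_le_pow_left₀ _ h1
        exact Finset.prod_nonneg fun p hp => (hb p (mem_siftPrimes.1 hp).1.2).1.le
    _ = _ := by
        rw [← mul_pow, ← mul_pow]
        congr 1
        ring

lemma T_half_le (k : ℕ) (hk : 1 ≤ k) (T : ℝ) (hT : 2 ≤ T) :
    T ^ ((1 : ℝ) / 2) ≤ (2 * k : ℝ) ^ k * (T / Real.log T ^ k) := by
  have hk0 : (0 : ℝ) < k := by exact_mod_cast hk
  have hlT : 0 < Real.log T := Real.log_pos (by linarith)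
  have hT0 : 0 < T := by linarith
  have h1 := Real.log_le_rpow_div hT0.le (show (0 : ℝ) < 1 / (2 * k) by positivity)
  have h2 : Real.log T ≤ (2 * k) * T ^ ((1 : ℝ) / (2 * k)) := by
    refine h1.trans (le_of_eq ?_)
    field_simp
  have h3 : Real.log T ^ k ≤ (2 * k) ^ k * T ^ ((1 : ℝ) / 2) := by
    calc Real.log T ^ k ≤ ((2 * k) * T ^ ((1 : ℝ) / (2 * k))) ^ k :=
          pow_le_pow_left₀ hlT.le h2 k
      _ = _ := by
        rw [mul_pow, ← Real.rpow_natCast (T ^ ((1 : ℝ) / (2 * k))) k, ← Real.rpow_mul hT0.le]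
        congr 2
        field_simp
  have hTT : T ^ ((1 : ℝ) / 2) * T ^ ((1 : ℝ) / 2) = T := by
    rw [← Real.rpow_add hT0]
    norm_num
  rw [mul_div_assoc', le_div_iff₀ (pow_pos hlT k)]
  have h4 : 0 < T ^ ((1 : ℝ) / 2) := Real.rpow_pos_of_pos hT0 _
  calc T ^ ((1 : ℝ) / 2) * Real.log T ^ k ≤ T ^ ((1 : ℝ) / 2) * ((2 * k) ^ k * T ^ ((1 : ℝ) / 2)) :=
        mul_le_mul_of_nonneg_left h3 h4.le
    _ = (2 * k) ^ k * (T ^ ((1 : ℝ) / 2) * T ^ ((1 : ℝ) / 2)) := by ring
    _ = _ := by rw [hTT]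

lemma prime_count_le (a b : Fin k → ℕ) (N E : ℕ) (hE : E ≠ 0) (haE : ∀ i, a i ∣ E) (y : ℝ)
    (hy : 0 ≤ y) :
    (((Finset.Ioc 0 N).filter (fun n => ∀ i, (a i * n + b i).Prime)).card : ℝ) ≤
      (((Finset.Ioc 0 N).filter
        (fun n => Nat.Coprime (∏ p ∈ siftPrimes k E y, p) (lform a b n))).card : ℝ) + y := by
  have h1 : (Finset.Ioc 0 N).filter (fun n => ∀ i, (a i * n + b i).Prime) ⊆
      (Finset.Ioc 0 N).filter
        (fun n => Nat.Coprime (∏ p ∈ siftPrimes k E y, p) (lform a b n)) ∪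
        Finset.Ioc 0 ⌊y⌋₊ := by
    intro n hn
    rw [Finset.mem_filter, Finset.mem_Ioc] at hn
    by_cases hny : n ≤ ⌊y⌋₊
    · apply Finset.mem_union_right
      rw [Finset.mem_Ioc]
      exact ⟨hn.1.1, hny⟩
    · apply Finset.mem_union_left
      rw [Finset.mem_filter, Finset.mem_Ioc]
      refine ⟨hn.1, ?_⟩
      apply Nat.Coprime.symm
      unfold lform
      apply Nat.Coprime.prod_left
      intro i _
      rw [(hn.2 i).coprime_iff_not_dvd]
      intro hdvd
      have h2 : a i * n + b i ∈ siftPrimes k E y := by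
        rw [← primeFactors_prod_siftPrimes k E y, Nat.mem_primeFactors]
        exact ⟨hn.2 i, hdvd, (prod_siftPrimes_squarefree k E y).ne_zero⟩
      have h5 := (mem_siftPrimes.1 h2).1.1
      have h3 : 1 ≤ a i := Nat.pos_of_ne_zero (ne_zero_of_dvd_ne_zero hE (haE i))
      have h4 : n ≤ a i * n + b i := by nlinarith
      omega
  have h2 := Finset.card_le_card h1
  have h3 := h2.trans (Finset.card_union_le _ _)
  rw [Nat.card_Ioc] at h3
  have h4 : (((Finset.Ioc 0 N).filter (fun n => ∀ i, (a i * n + b i).Prime)).card : ℝ) ≤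
    (((Finset.Ioc 0 N).filter
      (fun n => Nat.Coprime (∏ p ∈ siftPrimes k E y, p) (lform a b n))).card : ℝ) +
      (⌊y⌋₊ : ℝ) := by exact_mod_cast h3
  have h5 : (⌊y⌋₊ : ℝ) ≤ y := Nat.floor_le hy
  linarith

set_option maxHeartbeats 800000 in
/-- **Upper bound sieve for `k` linear forms.**  The number of `n ≤ T` such that all
`a i * n + b i` are prime is `≪_k T / (log T)^k * (E / φ(E))^k`, uniformly, where `E ≠ 0` is any
common multiple of the slopes and of the determinants `a i b j - a j b i`. -/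
theorem linear_sieve (k : ℕ) (hk : 1 ≤ k) : ∃ C : ℝ, 0 < C ∧
    ∀ (a b : Fin k → ℕ) (E : ℕ), E ≠ 0 → (∀ i, a i ∣ E) →
      (∀ i j, i ≠ j → ((a i : ℤ) * b j - (a j : ℤ) * b i) ∣ (E : ℤ)) → ∀ T : ℝ, 2 ≤ T →
      (((Finset.Ioc 0 ⌊T⌋₊).filter (fun n => ∀ i, (a i * n + b i).Prime)).card : ℝ) ≤
        C * (T / Real.log T ^ k) * ((E : ℝ) / Nat.totient E) ^ k := by
  obtain ⟨C₁, hC₁, hsift⟩ := prod_sift_le k hk
  set v : ℕ := 6 * k + 1 with hv
  have hk0 : (0 : ℝ) < k := by exact_mod_cast hk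
  have hv0 : (0 : ℝ) < v := by positivity
  refine ⟨2 * C₁ * (16 * v) ^ k + 2 * (2 * k) ^ k + (8 * v) ^ k, by positivity, ?_⟩
  intro a b E hE haE habE T hT
  have hT0 : 0 < T := by linarith
  have hlT : 0 < Real.log T := Real.log_pos (by linarith)
  have hlTk : 0 < Real.log T ^ k := pow_pos hlT k
  have hE0 : (0 : ℝ) < E := by exact_mod_cast Nat.pos_of_ne_zero hE
  have hEt : (0 : ℝ) < Nat.totient E := by
    exact_mod_cast Nat.totient_pos.2 (Nat.pos_of_ne_zero hE)
  have hEr1 : (1 : ℝ) ≤ (E : ℝ) / Nat.totient E := by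
    rw [le_div_iff₀ hEt, one_mul]
    exact_mod_cast Nat.totient_le E
  have hEr : (1 : ℝ) ≤ ((E : ℝ) / Nat.totient E) ^ k := one_le_pow₀ hEr1
  set N := ⌊T⌋₊ with hN
  have hNT : (N : ℝ) ≤ T := Nat.floor_le hT0.le
  have hTN : T < N + 1 := Nat.lt_floor_add_one T
  have hN2 : 2 ≤ N := Nat.le_floor (by exact_mod_cast hT)
  have hcardN : (((Finset.Ioc 0 N).filter (fun n => ∀ i, (a i * n + b i).Prime)).card : ℝ) ≤ N := by
    have h1 := Finset.card_filter_le (Finset.Ioc 0 N) (fun n => ∀ i, (a i * n + b i).Prime)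
    rw [Nat.card_Ioc] at h1
    exact_mod_cast h1
  have hTk : 0 < T / Real.log T ^ k := by positivity
  by_cases hsmall : N < 2 ^ (8 * v)
  · -- trivial bound
    have h1 : Real.log T ≤ 8 * v := by
      have h2 : T ≤ (2 : ℝ) ^ (8 * v) := by
        have : (N : ℝ) + 1 ≤ (2 : ℝ) ^ (8 * v) := by exact_mod_cast hsmall
        linarith
      have h3 := Real.log_le_log hT0 h2
      rw [Real.log_pow] at h3
      have h4 : Real.log 2 ≤ 1 := by
        have := Real.log_two_lt_d9
        linarith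
      push_cast at h3
      nlinarith
    have h2 : Real.log T ^ k ≤ (8 * v) ^ k := pow_le_pow_left₀ hlT.le h1 k
    have h3 : T ≤ (8 * v) ^ k * (T / Real.log T ^ k) := by
      rw [mul_div_assoc', le_div_iff₀ hlTk, mul_comm]
      exact mul_le_mul_of_nonneg_right h2 hT0.le
    calc (((Finset.Ioc 0 N).filter (fun n => ∀ i, (a i * n + b i).Prime)).card : ℝ) ≤ T :=
          hcardN.trans hNT
      _ ≤ (8 * v) ^ k * (T / Real.log T ^ k) := h3
      _ ≤ (2 * C₁ * (16 * v) ^ k + 2 * (2 * k) ^ k + (8 * v) ^ k) * (T / Real.log T ^ k) := by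
          apply mul_le_mul_of_nonneg_right _ hTk.le
          have : 0 < 2 * C₁ * (16 * v) ^ k + 2 * (2 * k) ^ k := by positivity
          linarith
      _ ≤ _ := le_mul_of_one_le_right (by positivity) hEr
  · push Not at hsmall
    have hN0 : (0 : ℝ) < N := by
      have : 0 < N := by omega
      exact_mod_cast this
    have hN1 : (1 : ℝ) ≤ N := by
      have : 1 ≤ N := by omega
      exact_mod_cast this
    set y : ℝ := (N : ℝ) ^ ((1 : ℝ) / (8 * v)) with hy
    have hy2 : 2 ≤ y := by
      have h1 : (2 : ℝ) = ((2 : ℝ) ^ (8 * v)) ^ ((1 : ℝ) / (8 * v)) := by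
        rw [← Real.rpow_natCast, ← Real.rpow_mul (by norm_num)]
        push_cast
        rw [mul_one_div_cancel (by positivity), Real.rpow_one]
      rw [h1, hy]
      apply Real.rpow_le_rpow (by positivity) _ (by positivity)
      exact_mod_cast hsmall
    have hy0 : 0 < y := by linarith
    have hly : 0 < Real.log y := Real.log_pos (by linarith)
    have hlogy : Real.log y = Real.log N / (8 * v) := by
      rw [hy, Real.log_rpow hN0]
      ring
    have hyv : y ^ v = (N : ℝ) ^ ((1 : ℝ) / 8) := by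
      rw [hy, ← Real.rpow_natCast, ← Real.rpow_mul hN0.le]
      congr 1
      field_simp
    set z := ⌊y ^ v⌋₊ with hz
    have hz1 : 1 ≤ z := by
      apply Nat.le_floor
      push_cast
      exact one_le_pow₀ (by linarith)
    have hzlt : y ^ v < z + 1 := Nat.lt_floor_add_one _
    have hzle : (z : ℝ) ≤ y ^ v := Nat.floor_le (by positivity)
    have hz4 : (z : ℝ) ^ 4 ≤ (N : ℝ) ^ ((1 : ℝ) / 2) := by
      calc (z : ℝ) ^ 4 ≤ (y ^ v) ^ 4 := pow_le_pow_left₀ (Nat.cast_nonneg _) hzle 4
        _ = _ := by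
          rw [hyv, ← Real.rpow_natCast, ← Real.rpow_mul hN0.le]
          norm_num
    have hyN : y ≤ (N : ℝ) ^ ((1 : ℝ) / 2) := by
      rw [hy]
      apply Real.rpow_le_rpow_of_exponent_le hN1
      have hv1 : (1 : ℝ) ≤ v := by
        have : 1 ≤ v := by omega
        exact_mod_cast this
      apply one_div_le_one_div_of_le (by norm_num)
      linarith
    set P := ∏ p ∈ siftPrimes k E y, p with hP
    have hPsq : Squarefree P := prod_siftPrimes_squarefree k E y
    have hPf : P.primeFactors = siftPrimes k E y := primeFactors_prod_siftPrimes k E y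
    have hmemP : ∀ p, p.Prime → p ∣ P → p ∈ siftPrimes k E y := by
      intro p hp hpP
      rw [← hPf, Nat.mem_primeFactors]
      exact ⟨hp, hpP, hPsq.ne_zero⟩
    have hg : ∀ p, p.Prime → p ∣ P → Good a b p := by
      intro p hp hpP
      have h1 := mem_siftPrimes.1 (hmemP p hp hpP)
      refine ⟨hp, by rw [Fintype.card_fin]; exact h1.2.1, fun i hi => h1.2.2 (hi.trans (haE i)),
        fun i j hij hpd => h1.2.2 ?_⟩
      have := hpd.trans (habE i j hij)
      exact_mod_cast this
    set s := theSieve hk a b N P hPsq hg with hs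
    have hsP : s.prodPrimes = P := rfl
    have hsnu : s.nu = nuk k := rfl
    have hnup : ∀ p ∈ P.primeFactors, s.nu p = (k : ℝ) / p := by
      intro p hp
      rw [hsnu, nuk_prime k p (Nat.prime_of_mem_primeFactors hp)]
    have hG := selG_ge s y hy2 v z hzlt (by
      intro p hp
      rw [hsP, hPf, mem_siftPrimes] at hp
      have h1 : (p : ℝ) ≤ ⌊y⌋₊ := by exact_mod_cast hp.1.1
      exact h1.trans (Nat.floor_le hy0.le)) (by
      rw [hsP]
      have h1 : ∀ p ∈ P.primeFactors, s.nu p * (2 * Real.log p / Real.log y) =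
          (2 * k / Real.log y) * (Real.log p / p) := by
        intro p hp
        rw [hnup p hp]
        ring
      rw [Finset.sum_congr rfl h1, ← Finset.mul_sum]
      have h2 : ∑ p ∈ P.primeFactors, Real.log p / (p : ℝ) ≤ Real.log y + Real.log 4 := by
        have h3 : ∑ p ∈ P.primeFactors, Real.log p / (p : ℝ) ≤
            ∑ p ∈ Nat.primesLE ⌊y⌋₊, Real.log p / (p : ℝ) := by
          apply Finset.sum_le_sum_of_subset_of_nonneg
          · rw [hPf]; exact Finset.filter_subset _ _
          · intro p _ _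
            exact div_nonneg (Real.log_natCast_nonneg p) (Nat.cast_nonneg p)
        have hfl : 1 ≤ ⌊y⌋₊ := Nat.le_floor (by push_cast; linarith)
        have h4 := Mertens.A_le ⌊y⌋₊ hfl
        have h5 : Real.log (⌊y⌋₊ : ℝ) ≤ Real.log y := by
          apply Real.log_le_log
          · exact_mod_cast hfl
          · exact Nat.floor_le hy0.le
        unfold Mertens.A at h4
        linarith
      have h3 : Real.log 4 ≤ 2 * Real.log y := by
        have h4 : Real.log 4 = 2 * Real.log 2 := by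
          rw [show (4 : ℝ) = 2 ^ 2 by norm_num, Real.log_pow]
          norm_num
        have h5 := Real.log_le_log (by norm_num) hy2
        linarith
      have h4 : (2 * k / Real.log y) * (∑ p ∈ P.primeFactors, Real.log p / (p : ℝ)) ≤
          (2 * k / Real.log y) * (3 * Real.log y) :=
        mul_le_mul_of_nonneg_left (by linarith) (by positivity)
      have h5 : (2 * k / Real.log y) * (3 * Real.log y) = 6 * k := by
        field_simp
        ring
      rw [h5] at h4
      have h6 : (v : ℝ) = 6 * k + 1 := by rw [hv]; push_cast; ring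
      linarith)
    rw [hsP] at hG
    have hbound := selberg_bound s hz1
    rw [hs, theSieve_siftedSum] at hbound
    have herr := error_le hk a b N P hPsq hg z
    -- main term
    have hprodpos : 0 < ∏ p ∈ P.primeFactors, (1 - s.nu p) := by
      apply Finset.prod_pos
      intro p hp
      have h1 := s.nu_lt_one_of_prime p (Nat.prime_of_mem_primeFactors hp)
        (Nat.dvd_of_mem_primeFactors hp)
      linarith
    have hGinv : (selG s z)⁻¹ ≤ 2 * ∏ p ∈ P.primeFactors, (1 - s.nu p) := by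
      rw [Finset.prod_inv_distrib] at hG
      have h1 : 0 < (1 / 2) * (∏ p ∈ P.primeFactors, (1 - s.nu p))⁻¹ := by positivity
      have h2 := inv_anti₀ h1 hG
      refine h2.trans (le_of_eq ?_)
      rw [mul_inv, inv_inv]
      norm_num
    have hprod : ∏ p ∈ P.primeFactors, (1 - s.nu p) ≤
        C₁ * (1 / Real.log y) ^ k * ((E : ℝ) / Nat.totient E) ^ k := by
      have h1 : ∏ p ∈ P.primeFactors, (1 - s.nu p) =
          ∏ p ∈ siftPrimes k E y, (1 - (k : ℝ) / p) := by
        rw [← hPf]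
        exact Finset.prod_congr rfl fun p hp => by rw [hnup p hp]
      rw [h1]
      exact hsift E y hE hy2
    have hlogN : Real.log T ≤ 2 * Real.log N := by
      have h1 : T ≤ (N : ℝ) ^ 2 := by
        have : (2 : ℝ) ≤ N := by exact_mod_cast hN2
        nlinarith
      have h2 := Real.log_le_log hT0 h1
      rw [Real.log_pow] at h2
      exact_mod_cast h2
    have hinvlog : 1 / Real.log y ≤ (16 * v) / Real.log T := by
      rw [hlogy, one_div_div, div_le_div_iff₀ (Real.log_pos (by
        have : (2 : ℝ) ≤ N := by exact_mod_cast hN2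
        linarith)) hlT]
      nlinarith
    have hmain : s.totalMass * (selG s z)⁻¹ ≤
        2 * C₁ * (16 * v) ^ k * (T / Real.log T ^ k) * ((E : ℝ) / Nat.totient E) ^ k := by
      have h0 : s.totalMass = (N : ℝ) := rfl
      rw [h0]
      have h1 : (1 / Real.log y) ^ k ≤ ((16 * v) / Real.log T) ^ k :=
        pow_le_pow_left₀ (by positivity) hinvlog k
      calc (N : ℝ) * (selG s z)⁻¹
          ≤ T * (2 * (C₁ * ((16 * v) / Real.log T) ^ k * ((E : ℝ) / Nat.totient E) ^ k)) := by
            apply mul_le_mul hNT _ _ hT0.le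
            · refine hGinv.trans ?_
              apply mul_le_mul_of_nonneg_left _ (by norm_num)
              refine hprod.trans ?_
              apply mul_le_mul_of_nonneg_right _ (by positivity)
              exact mul_le_mul_of_nonneg_left h1 hC₁.le
            · exact (inv_pos.2 (selG_pos s hz1)).le
        _ = _ := by
            rw [div_pow]
            ring
    -- from prime values to sifted set
    have hcount := prime_count_le a b N E hE haE y hy0.le
    rw [← hP] at hcount
    have hTh : (N : ℝ) ^ ((1 : ℝ) / 2) ≤ (2 * k) ^ k * (T / Real.log T ^ k) := by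
      refine le_trans ?_ (T_half_le k hk T hT)
      exact Real.rpow_le_rpow hN0.le hNT (by norm_num)
    have hfin : (((Finset.Ioc 0 N).filter (fun n => ∀ i, (a i * n + b i).Prime)).card : ℝ) ≤
        2 * C₁ * (16 * v) ^ k * (T / Real.log T ^ k) * ((E : ℝ) / Nat.totient E) ^ k +
          2 * ((2 * k) ^ k * (T / Real.log T ^ k)) := by
      have e1 : (theSieve hk a b N P hPsq hg).prodPrimes = P := rfl
      rw [e1] at hbound
      linarith
    refine hfin.trans ?_
    have h7 : 2 * ((2 * k : ℝ) ^ k * (T / Real.log T ^ k)) ≤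
        2 * ((2 * k : ℝ) ^ k * (T / Real.log T ^ k)) * ((E : ℝ) / Nat.totient E) ^ k :=
      le_mul_of_one_le_right (by positivity) hEr
    have h8 : 0 ≤ (8 * v : ℝ) ^ k * (T / Real.log T ^ k) * ((E : ℝ) / Nat.totient E) ^ k := by
      positivity
    have e2 : (2 * C₁ * (16 * v) ^ k + 2 * (2 * k) ^ k + (8 * v) ^ k) * (T / Real.log T ^ k) *
        ((E : ℝ) / Nat.totient E) ^ k =
        2 * C₁ * (16 * v) ^ k * (T / Real.log T ^ k) * ((E : ℝ) / Nat.totient E) ^ k +
        2 * ((2 * k : ℝ) ^ k * (T / Real.log T ^ k)) * ((E : ℝ) / Nat.totient E) ^ k +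
        (8 * v : ℝ) ^ k * (T / Real.log T ^ k) * ((E : ℝ) / Nat.totient E) ^ k := by ring
    rw [e2]
    linarith

end Crest.Agent.Lib.LinSieve
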