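import Mathlib

/-! Selberg's upper bound sieve (main theorem), on top of Mathlib's `BoundingSieve`. -/

set_option autoImplicit false

namespace Crest.Agent.Lib.LinSieve

open Finset ArithmeticFunction BoundingSieve

open scoped ArithmeticFunction.Moebius

variable (s : BoundingSieve)

/-- Selberg's sum `G(z) = ∑_{l ∣ P, l ≤ z} g(l)`. -/
noncomputable def selG (z : ℕ) : ℝ :=
  ∑ l ∈ s.prodPrimes.divisors with l ≤ z, s.selbergTerms l

/-- inner sum -/
noncomputable def selGd (z d : ℕ) : ℝ :=
  ∑ m ∈ s.prodPrimes.divisors with (d * m ≤ z ∧ Nat.Coprime m d), s.selbergTerms m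

/-- Selberg's weights. -/
noncomputable def selW (z d : ℕ) : ℝ :=
  if d ∣ s.prodPrimes then
    (μ d : ℝ) * (s.nu d)⁻¹ * s.selbergTerms d * (selG s z)⁻¹ * selGd s z d else 0

lemma selbergTerms_one : s.selbergTerms 1 = 1 :=
  (selbergTerms_isMultiplicative (s := s)).map_one

lemma selG_pos {z : ℕ} (hz : 1 ≤ z) : 0 < selG s z := by
  unfold selG
  apply Finset.sum_pos
  · intro l hl
    rw [Finset.mem_filter, Nat.mem_divisors] at hl
    exact selbergTerms_pos hl.1.1
  · refine ⟨1, ?_⟩
    rw [Finset.mem_filter, Nat.mem_divisors]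
    exact ⟨⟨one_dvd _, prodPrimes_ne_zero⟩, hz⟩

lemma selGd_nonneg (z d : ℕ) : 0 ≤ selGd s z d := by
  unfold selGd
  apply Finset.sum_nonneg
  intro m hm
  rw [Finset.mem_filter, Nat.mem_divisors] at hm
  exact (selbergTerms_pos hm.1.1).le

lemma selGd_one (z : ℕ) : selGd s z 1 = selG s z := by
  unfold selGd selG
  apply Finset.sum_congr _ (fun _ _ => rfl)
  ext m
  simp

lemma selW_one {z : ℕ} (hz : 1 ≤ z) : selW s z 1 = 1 := by
  unfold selW
  rw [if_pos (one_dvd _), selGd_one, selbergTerms_one]
  have h := (selG_pos s hz).ne'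
  have h1 : s.nu 1 = 1 := s.nu_mult.map_one
  rw [h1]
  simp
  field_simp

/-- `g(d) * ∑_{m, (m,d)=1, dm ≤ z} g(m) = ∑_{n ≤ z, d ∣ n} g(n)`. -/
lemma g_mul_selGd {z d : ℕ} (hd : d ∣ s.prodPrimes) :
    s.selbergTerms d * selGd s z d =
      ∑ n ∈ s.prodPrimes.divisors with (n ≤ z ∧ d ∣ n), s.selbergTerms n := by
  have hP := s.prodPrimes_squarefree
  have hP0 : s.prodPrimes ≠ 0 := prodPrimes_ne_zero
  have hd0 : 0 < d := Nat.pos_of_ne_zero (ne_zero_of_dvd_ne_zero hP0 hd)
  unfold selGd
  rw [Finset.mul_sum]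
  apply Finset.sum_bij' (fun m _ => d * m) (fun n _ => n / d)
  · intro m hm
    rw [Finset.mem_filter, Nat.mem_divisors] at hm
    rw [Finset.mem_filter, Nat.mem_divisors]
    refine ⟨⟨?_, hP0⟩, hm.2.1, dvd_mul_right _ _⟩
    exact Nat.Coprime.mul_dvd_of_dvd_of_dvd hm.2.2.symm hd hm.1.1
  · intro n hn
    rw [Finset.mem_filter, Nat.mem_divisors] at hn
    obtain ⟨⟨hnP, _⟩, hnz, hdn⟩ := hn
    obtain ⟨m, rfl⟩ := hdn
    rw [Finset.mem_filter, Nat.mem_divisors, Nat.mul_div_cancel_left _ hd0]
    refine ⟨⟨(dvd_mul_left _ _).trans hnP, hP0⟩, hnz, ?_⟩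
    exact (Nat.coprime_of_squarefree_mul (hP.squarefree_of_dvd hnP)).symm
  · intro m hm
    exact Nat.mul_div_cancel_left _ hd0
  · intro n hn
    rw [Finset.mem_filter, Nat.mem_divisors] at hn
    exact Nat.mul_div_cancel' hn.2.2
  · intro m hm
    rw [Finset.mem_filter, Nat.mem_divisors] at hm
    rw [(selbergTerms_isMultiplicative (s := s)).map_mul_of_coprime hm.2.2.symm]

/-- The diagonalised variables. -/
lemma sum_nu_selW {z l : ℕ} (hl : l ∣ s.prodPrimes) :
    (∑ d ∈ s.prodPrimes.divisors, if l ∣ d then s.nu d * selW s z d else 0) =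
      if l ≤ z then (μ l : ℝ) * s.selbergTerms l * (selG s z)⁻¹ else 0 := by
  have hP := s.prodPrimes_squarefree
  have hP0 : s.prodPrimes ≠ 0 := prodPrimes_ne_zero
  have hl0 : 0 < l := Nat.pos_of_ne_zero (ne_zero_of_dvd_ne_zero hP0 hl)
  have h1 : ∀ d ∈ s.prodPrimes.divisors,
      (if l ∣ d then s.nu d * selW s z d else 0) =
        (selG s z)⁻¹ * ∑ n ∈ s.prodPrimes.divisors,
          if (l ∣ d ∧ n ≤ z ∧ d ∣ n) then (μ d : ℝ) * s.selbergTerms n else 0 := by
    intro d hd
    rw [Nat.mem_divisors] at hd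
    by_cases hld : l ∣ d
    · rw [if_pos hld]
      unfold selW
      rw [if_pos hd.1]
      have hnu := nu_ne_zero hd.1
      have h2 := g_mul_selGd s (z := z) hd.1
      calc s.nu d * ((μ d : ℝ) * (s.nu d)⁻¹ * s.selbergTerms d * (selG s z)⁻¹ * selGd s z d)
          = (selG s z)⁻¹ * ((μ d : ℝ) * (s.selbergTerms d * selGd s z d)) := by
            field_simp
        _ = _ := by
          rw [h2, Finset.mul_sum, Finset.sum_filter]
          congr 1
          apply Finset.sum_congr rfl
          intro n hn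
          simp [hld]
    · rw [if_neg hld]
      simp [hld]
  rw [Finset.sum_congr rfl h1, ← Finset.mul_sum, Finset.sum_comm]
  have h3 : ∀ n ∈ s.prodPrimes.divisors,
      (∑ d ∈ s.prodPrimes.divisors,
        if (l ∣ d ∧ n ≤ z ∧ d ∣ n) then (μ d : ℝ) * s.selbergTerms n else 0) =
      if n = l then (if l ≤ z then (μ l : ℝ) * s.selbergTerms l else 0) else 0 := by
    intro n hn
    rw [Nat.mem_divisors] at hn
    have hnsq : Squarefree n := hP.squarefree_of_dvd hn.1
    have hn0 : n ≠ 0 := hnsq.ne_zero
    by_cases hnz : n ≤ z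
    · by_cases hln : l ∣ n
      · -- sum over d with l ∣ d ∣ n of μ d
        obtain ⟨q, rfl⟩ := hln
        have hq0 : 0 < q := Nat.pos_of_ne_zero (by rintro rfl; simp at hn0)
        have hcop : Nat.Coprime l q := Nat.coprime_of_squarefree_mul hnsq
        have h4 : (∑ d ∈ s.prodPrimes.divisors,
            if (l ∣ d ∧ l * q ≤ z ∧ d ∣ l * q) then (μ d : ℝ) * s.selbergTerms (l * q) else 0) =
            (∑ e ∈ q.divisors, (μ (l * e) : ℝ)) * s.selbergTerms (l * q) := by
          rw [← Finset.sum_filter, Finset.sum_mul]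
          symm
          apply Finset.sum_bij' (fun e _ => l * e) (fun d _ => d / l)
          · intro e he
            rw [Nat.mem_divisors] at he
            rw [Finset.mem_filter, Nat.mem_divisors]
            have : l * e ∣ l * q := mul_dvd_mul_left l he.1
            exact ⟨⟨this.trans hn.1, hP0⟩, dvd_mul_right _ _, hnz, this⟩
          · intro d hd
            rw [Finset.mem_filter, Nat.mem_divisors] at hd
            obtain ⟨⟨_, _⟩, ⟨e, rfl⟩, _, h5⟩ := hd
            rw [Nat.mul_div_cancel_left _ hl0, Nat.mem_divisors]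
            exact ⟨(mul_dvd_mul_iff_left hl0.ne').1 h5, hq0.ne'⟩
          · intro e he
            exact Nat.mul_div_cancel_left _ hl0
          · intro d hd
            rw [Finset.mem_filter, Nat.mem_divisors] at hd
            exact Nat.mul_div_cancel' hd.2.1
          · intro e he
            rfl
        rw [h4]
        have h5 : (∑ e ∈ q.divisors, (μ (l * e) : ℝ)) = (μ l : ℝ) * (if q = 1 then 1 else 0) := by
          have h6 : ∀ e ∈ q.divisors, (μ (l * e) : ℝ) = (μ l : ℝ) * (μ e : ℝ) := by
            intro e he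
            rw [Nat.mem_divisors] at he
            have hc : Nat.Coprime l e := Nat.Coprime.coprime_dvd_right he.1 hcop
            rw [isMultiplicative_moebius.map_mul_of_coprime hc]
            push_cast
            ring
          rw [Finset.sum_congr rfl h6, ← Finset.mul_sum]
          congr 1
          have h7 := congrArg (fun f : ArithmeticFunction ℤ => f q) moebius_mul_coe_zeta
          simp only [ArithmeticFunction.coe_mul_zeta_apply, ArithmeticFunction.one_apply] at h7
          have h8 : (((∑ e ∈ q.divisors, μ e : ℤ)) : ℝ) = ((if q = 1 then 1 else 0 : ℤ) : ℝ) := by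
            rw [h7]
          push_cast at h8
          exact h8
        rw [h5]
        by_cases hq1 : q = 1
        · subst hq1
          simp only [mul_one, if_true]
          rw [mul_one] at hnz
          rw [if_pos hnz]
        · rw [if_neg hq1]
          have : l * q ≠ l := by
            intro h
            apply hq1
            have := Nat.eq_of_mul_eq_mul_left hl0 (h.trans (mul_one l).symm)
            exact this
          rw [if_neg this]
          simp
      · have h8 : n ≠ l := by
          rintro rfl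
          exact hln dvd_rfl
        rw [if_neg h8]
        apply Finset.sum_eq_zero
        intro d hd
        rw [if_neg]
        rintro ⟨h9, -, h10⟩
        exact hln (h9.trans h10)
    · have h9 : (∑ d ∈ s.prodPrimes.divisors,
        if (l ∣ d ∧ n ≤ z ∧ d ∣ n) then (μ d : ℝ) * s.selbergTerms n else 0) = 0 := by
        apply Finset.sum_eq_zero
        intro d hd
        rw [if_neg]
        rintro ⟨-, h10, -⟩
        exact hnz h10
      rw [h9]
      by_cases hnl : n = l
      · subst hnl
        rw [if_pos rfl, if_neg hnz]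
      · rw [if_neg hnl]
  rw [Finset.sum_congr rfl h3, Finset.sum_ite_eq' , if_pos (Nat.mem_divisors.2 ⟨hl, hP0⟩)]
  by_cases hlz : l ≤ z
  · rw [if_pos hlz, if_pos hlz]
    ring
  · rw [if_neg hlz, if_neg hlz, mul_zero]

lemma mainSum_selW {z : ℕ} (hz : 1 ≤ z) :
    s.mainSum (lambdaSquared (selW s z)) = (selG s z)⁻¹ := by
  rw [mainSum_lambdaSquared_eq_sum_mul_sum_sq]
  have hG := (selG_pos s hz).ne'
  have h1 : ∀ l ∈ s.prodPrimes.divisors, (s.selbergTerms l)⁻¹ *
      (∑ d ∈ s.prodPrimes.divisors, if l ∣ d then s.nu d * selW s z d else 0) ^ 2 =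
      (selG s z)⁻¹ ^ 2 * (if l ≤ z then s.selbergTerms l else 0) := by
    intro l hl
    rw [Nat.mem_divisors] at hl
    rw [sum_nu_selW s hl.1]
    have hg := (selbergTerms_pos hl.1).ne'
    have hsq := s.prodPrimes_squarefree.squarefree_of_dvd hl.1
    have hmu : (μ l : ℝ) ^ 2 = 1 := by
      have := (moebius_sq_eq_one_of_squarefree hsq)
      exact_mod_cast this
    split_ifs
    · rw [mul_pow, mul_pow, hmu]
      field_simp
    · simp
  rw [Finset.sum_congr rfl h1, ← Finset.mul_sum, ← Finset.sum_filter]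
  change (selG s z)⁻¹ ^ 2 * selG s z = _
  field_simp

lemma abs_selW_le {z : ℕ} (hz : 1 ≤ z) (d : ℕ) : |selW s z d| ≤ 1 := by
  unfold selW
  split_ifs with hd
  swap
  · simp
  have hP := s.prodPrimes_squarefree
  have hP0 : s.prodPrimes ≠ 0 := prodPrimes_ne_zero
  have hd0 : 0 < d := Nat.pos_of_ne_zero (ne_zero_of_dvd_ne_zero hP0 hd)
  have hG := selG_pos s hz
  have hnu := nu_pos_of_dvd_prodPrimes hd
  have hg := selbergTerms_pos hd
  have hGd := selGd_nonneg s z d
  have hsq := hP.squarefree_of_dvd hd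
  have hmu : |(μ d : ℝ)| = 1 := by
    have := (moebius_sq_eq_one_of_squarefree hsq)
    have h2 : (μ d : ℝ) ^ 2 = 1 := by exact_mod_cast this
    have h3 : |(μ d : ℝ)| ^ 2 = 1 := by rw [sq_abs, h2]
    have h4 : 0 ≤ |(μ d : ℝ)| := abs_nonneg _
    nlinarith
  rw [abs_mul, abs_mul, abs_mul, abs_mul, hmu, one_mul, abs_of_pos (inv_pos.2 hnu),
    abs_of_pos hg, abs_of_pos (inv_pos.2 hG), abs_of_nonneg hGd]
  -- key inequality
  have key : (s.selbergTerms d * (s.nu d)⁻¹) * selGd s z d ≤ selG s z := by
    rw [← sum_divisors_selbergTerms_eq_selbergTerms_mul_nu_inv hd, ← Finset.sum_filter,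
      Nat.divisors_filter_dvd_of_dvd prodPrimes_ne_zero hd, Finset.sum_mul]
    have h1 : ∀ k ∈ d.divisors, s.selbergTerms k * selGd s z d ≤
        ∑ n ∈ s.prodPrimes.divisors with (n ≤ z ∧ Nat.gcd n d = k), s.selbergTerms n := by
      intro k hk
      rw [Nat.mem_divisors] at hk
      have hk0 : 0 < k := Nat.pos_of_ne_zero (ne_zero_of_dvd_ne_zero hk.2 hk.1)
      have hkP := hk.1.trans hd
      unfold selGd
      rw [Finset.mul_sum]
      have h2 : ∀ m ∈ s.prodPrimes.divisors.filter (fun m => d * m ≤ z ∧ Nat.Coprime m d),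
          s.selbergTerms k * s.selbergTerms m = s.selbergTerms (k * m) := by
        intro m hm
        rw [Finset.mem_filter, Nat.mem_divisors] at hm
        rw [(selbergTerms_isMultiplicative (s := s)).map_mul_of_coprime]
        exact (Nat.Coprime.coprime_dvd_right hk.1 hm.2.2).symm
      rw [Finset.sum_congr rfl h2]
      have h3 : ∑ m ∈ s.prodPrimes.divisors.filter (fun m => d * m ≤ z ∧ Nat.Coprime m d),
          s.selbergTerms (k * m) =
          ∑ n ∈ (s.prodPrimes.divisors.filter (fun m => d * m ≤ z ∧ Nat.Coprime m d)).image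
            (fun m => k * m), s.selbergTerms n := by
        rw [Finset.sum_image]
        intro a _ b _ hab
        exact Nat.eq_of_mul_eq_mul_left hk0 hab
      rw [h3]
      apply Finset.sum_le_sum_of_subset_of_nonneg
      · intro n hn
        rw [Finset.mem_image] at hn
        obtain ⟨m, hm, rfl⟩ := hn
        rw [Finset.mem_filter, Nat.mem_divisors] at hm
        rw [Finset.mem_filter, Nat.mem_divisors]
        refine ⟨⟨?_, hP0⟩, ?_, ?_⟩
        · exact Nat.Coprime.mul_dvd_of_dvd_of_dvd
            (Nat.Coprime.coprime_dvd_right hk.1 hm.2.2).symm hkP hm.1.1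
        · exact (Nat.mul_le_mul_right m (Nat.le_of_dvd hd0 hk.1)).trans hm.2.1
        · rw [Nat.Coprime.gcd_mul_right_cancel k hm.2.2]
          exact Nat.gcd_eq_left hk.1
      · intro n hn _
        rw [Finset.mem_filter, Nat.mem_divisors] at hn
        exact (selbergTerms_pos hn.1.1).le
    refine (Finset.sum_le_sum h1).trans ?_
    rw [selG]
    have h4 : ∑ k ∈ d.divisors, ∑ n ∈ s.prodPrimes.divisors with (n ≤ z ∧ Nat.gcd n d = k),
        s.selbergTerms n = ∑ n ∈ s.prodPrimes.divisors with n ≤ z, s.selbergTerms n := by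
      rw [← Finset.sum_fiberwise_of_maps_to (s := s.prodPrimes.divisors.filter (fun n => n ≤ z))
        (t := d.divisors) (g := fun n => Nat.gcd n d)]
      · apply Finset.sum_congr rfl
        intro k _
        rw [Finset.filter_filter]
      · intro n _
        rw [Nat.mem_divisors]
        exact ⟨Nat.gcd_dvd_right _ _, hd0.ne'⟩
    rw [h4]
  have h5 : (s.nu d)⁻¹ * s.selbergTerms d * (selG s z)⁻¹ * selGd s z d =
      ((s.selbergTerms d * (s.nu d)⁻¹) * selGd s z d) / selG s z := by
    field_simp
  rw [h5, div_le_one hG]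
  exact key

lemma selW_eq_zero {z d : ℕ} (hdz : z < d) : selW s z d = 0 := by
  unfold selW
  split_ifs with hd
  · have : selGd s z d = 0 := by
      unfold selGd
      apply Finset.sum_eq_zero
      intro m hm
      rw [Finset.mem_filter, Nat.mem_divisors] at hm
      exfalso
      have hm0 : 0 < m := Nat.pos_of_ne_zero (ne_zero_of_dvd_ne_zero hm.1.2 hm.1.1)
      have : d ≤ d * m := Nat.le_mul_of_pos_right d hm0
      omega
    rw [this, mul_zero]
  · rfl

/-- **Selberg's upper bound sieve.** -/
theorem selberg_bound {z : ℕ} (hz : 1 ≤ z) :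
    s.siftedSum ≤ s.totalMass * (selG s z)⁻¹ +
      ∑ d1 ∈ s.prodPrimes.divisors with d1 ≤ z, ∑ d2 ∈ s.prodPrimes.divisors with d2 ≤ z,
        |s.rem (Nat.lcm d1 d2)| := by
  have h1 := siftedSum_le_mainSum_errSum_of_upperMoebius (s := s) _
    (upperMoebius_lambdaSquared (selW s z) (selW_one s hz))
  rw [mainSum_selW s hz] at h1
  refine h1.trans ?_
  gcongr
  unfold BoundingSieve.errSum
  have hP0 : s.prodPrimes ≠ 0 := prodPrimes_ne_zero
  have h2 : ∀ d ∈ s.prodPrimes.divisors, |lambdaSquared (selW s z) d| * |s.rem d| ≤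
      ∑ d1 ∈ s.prodPrimes.divisors with d1 ≤ z, ∑ d2 ∈ s.prodPrimes.divisors with d2 ≤ z,
        if d = Nat.lcm d1 d2 then |s.rem (Nat.lcm d1 d2)| else 0 := by
    intro d hd
    rw [Nat.mem_divisors] at hd
    have h3 : |lambdaSquared (selW s z) d| ≤
        ∑ d1 ∈ s.prodPrimes.divisors with d1 ≤ z, ∑ d2 ∈ s.prodPrimes.divisors with d2 ≤ z,
          if d = Nat.lcm d1 d2 then (1 : ℝ) else 0 := by
      unfold lambdaSquared
      refine (Finset.abs_sum_le_sum_abs _ _).trans ?_
      have h4 : ∀ d1 ∈ d.divisors, |∑ d2 ∈ d.divisors,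
          if d = Nat.lcm d1 d2 then selW s z d1 * selW s z d2 else 0| ≤
          if d1 ≤ z then ∑ d2 ∈ d.divisors with d2 ≤ z,
            (if d = Nat.lcm d1 d2 then (1 : ℝ) else 0) else 0 := by
        intro d1 hd1
        by_cases h5 : d1 ≤ z
        · rw [if_pos h5, Finset.sum_filter]
          refine (Finset.abs_sum_le_sum_abs _ _).trans (Finset.sum_le_sum fun d2 _ => ?_)
          by_cases h6 : d2 ≤ z
          · rw [if_pos h6]
            by_cases h7 : d = Nat.lcm d1 d2
            · rw [if_pos h7, if_pos h7, abs_mul]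
              have a1 := abs_selW_le s hz d1
              have a2 := abs_selW_le s hz d2
              have a3 := abs_nonneg (selW s z d1)
              have a4 := abs_nonneg (selW s z d2)
              nlinarith
            · rw [if_neg h7, if_neg h7, abs_zero]
          · rw [if_neg h6, selW_eq_zero s (not_le.1 h6), mul_zero]
            simp
        · rw [if_neg h5]
          have : ∀ d2 ∈ d.divisors,
              (if d = Nat.lcm d1 d2 then selW s z d1 * selW s z d2 else 0) = 0 := by
            intro d2 _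
            rw [selW_eq_zero s (not_le.1 h5), zero_mul]
            simp
          rw [Finset.sum_congr rfl this]
          simp
      refine (Finset.sum_le_sum h4).trans ?_
      rw [← Finset.sum_filter]
      have hsub : d.divisors ⊆ s.prodPrimes.divisors := Nat.divisors_subset_of_dvd hP0 hd.1
      have hsub2 : d.divisors.filter (fun x => x ≤ z) ⊆
          s.prodPrimes.divisors.filter (fun x => x ≤ z) := Finset.filter_subset_filter _ hsub
      calc ∑ d1 ∈ d.divisors with d1 ≤ z, ∑ d2 ∈ d.divisors with d2 ≤ z,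
            (if d = Nat.lcm d1 d2 then (1 : ℝ) else 0)
          ≤ ∑ d1 ∈ d.divisors with d1 ≤ z, ∑ d2 ∈ s.prodPrimes.divisors with d2 ≤ z,
            (if d = Nat.lcm d1 d2 then (1 : ℝ) else 0) := by
            apply Finset.sum_le_sum
            intro d1 _
            apply Finset.sum_le_sum_of_subset_of_nonneg hsub2
            intro i _ _
            split_ifs <;> norm_num
        _ ≤ _ := by
            apply Finset.sum_le_sum_of_subset_of_nonneg hsub2
            intro i _ _
            apply Finset.sum_nonneg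
            intro j _
            split_ifs <;> norm_num
    calc |lambdaSquared (selW s z) d| * |s.rem d| ≤
        (∑ d1 ∈ s.prodPrimes.divisors with d1 ≤ z, ∑ d2 ∈ s.prodPrimes.divisors with d2 ≤ z,
          if d = Nat.lcm d1 d2 then (1 : ℝ) else 0) * |s.rem d| :=
          mul_le_mul_of_nonneg_right h3 (abs_nonneg _)
      _ = _ := by
        rw [Finset.sum_mul]
        apply Finset.sum_congr rfl
        intro d1 _
        rw [Finset.sum_mul]
        apply Finset.sum_congr rfl
        intro d2 _
        by_cases h7 : d = Nat.lcm d1 d2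
        · rw [if_pos h7, if_pos h7, one_mul, ← h7]
        · rw [if_neg h7, if_neg h7, zero_mul]
  refine (Finset.sum_le_sum h2).trans (le_of_eq ?_)
  rw [Finset.sum_comm]
  apply Finset.sum_congr rfl
  intro d1 hd1
  rw [Finset.sum_comm]
  apply Finset.sum_congr rfl
  intro d2 hd2
  rw [Finset.mem_filter, Nat.mem_divisors] at hd1 hd2
  rw [Finset.sum_ite_eq', if_pos]
  rw [Nat.mem_divisors]
  exact ⟨Nat.lcm_dvd hd1.1.1 hd2.1.1, hP0⟩

end Crest.Agent.Lib.LinSieve
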